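import Vale.Agent.P232.Slice.Defs
import Vale.Agent.P232.Rigid.Defs

/-!
# P232: the strict forms of the one-dimensional certificates used for rigidity

`StmtCaseB` and `StmtCaseC` with the additional information that their bounds stay away from the
candidate unless the parameters are those of a slab, respectively of a ball or of a tube.
-/

open MeasureTheory Set Real

namespace Vale.Agent.P232.Rigid

/-- The bound of case B for given calibrations. -/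
noncomputable def boundB (c₁ c₂ l α γ β q v : ℝ) : ℝ :=
  cut * c₁ + (1 - cut) * c₂ + l * v + (∫ a in γ..α, sig c₁ l (pPre q) a) +
    ∫ a in β..γ, sig c₂ l (pPost q) a

/-- The bound of case C for given calibrations. -/
noncomputable def boundC (c l α β v : ℝ) : ℝ := c + l * v + ∫ a in β..α, sig c l pC a

/-- Case B with strictness: away from `v = 0` only slabs (`α = 1`, `β = 0`) come near the candidate. -/
def StmtStrictB : Prop :=
  ∃ c₁ c₂ l : ℝ × ℝ × ℝ × ℝ × ℝ → ℝ, Measurable c₁ ∧ Measurable c₂ ∧ Measurable l ∧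
    (∀ α γ β q v : ℝ, 0 ≤ β → β ≤ γ → γ ≤ α → α ≤ 1 → 0 ≤ q → q ≤ γ → v ≤ 1 / 2 →
      v ≤ cut * α + (1 - cut) * γ → cut * γ + (1 - cut) * β ≤ v →
      (∀ a ∈ Icc γ α, c₁ (α, γ, β, q, v) + l (α, γ, β, q, v) * a ≤ pPre q a) ∧
      (∀ a ∈ Icc β γ, c₂ (α, γ, β, q, v) + l (α, γ, β, q, v) * a ≤ pPost q a)) ∧
    ∀ δ > (0 : ℝ), ∃ η > (0 : ℝ), ∀ α γ β q v : ℝ,
      0 ≤ β → β ≤ γ → γ ≤ α → α ≤ 1 → 0 ≤ q → q ≤ γ → δ ≤ v → v ≤ 1 / 2 →
      v ≤ cut * α + (1 - cut) * γ → cut * γ + (1 - cut) * β ≤ v →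
      boundB (c₁ (α, γ, β, q, v)) (c₂ (α, γ, β, q, v)) (l (α, γ, β, q, v))
          α γ β q v < cubeCandidate v + η →
      1 - δ < α ∧ β < δ

/-- Case C with strictness: near the candidate the slice areas are those of a ball or of a tube. -/
def StmtStrictC : Prop :=
  ∃ c l : ℝ × ℝ × ℝ → ℝ, Measurable c ∧ Measurable l ∧
    (∀ α β v : ℝ, 0 ≤ β → β ≤ v → v ≤ α → α ≤ 1 → v ≤ 1 / 2 →
      ∀ a ∈ Icc β α, c (α, β, v) + l (α, β, v) * a ≤ pC a) ∧
    ∀ v₀ ∈ Ioc (0 : ℝ) (1 / 2), ∀ δ > (0 : ℝ), ∃ η > (0 : ℝ), ∀ α β v : ℝ,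
      0 ≤ β → β ≤ v → v ≤ α → α ≤ 1 → v ≤ 1 / 2 → |v - v₀| < η →
      boundC (c (α, β, v)) (l (α, β, v)) α β v < cubeCandidate v + η →
      (β < δ ∧ |4 * α * √α / (3 * √π) - v₀| < δ) ∨ (|α - v₀| < δ ∧ |β - v₀| < δ)

end Vale.Agent.P232.Rigid
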