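import Vale.Agent.P232.Rigid.Back
import Vale.Agent.P232.Upper
import Vale.Agent.P232.Symm.CubeTools

/-!
# P232: the bodies that attain the candidate are shapes
-/

open MeasureTheory Set Filter
open scoped Topology

namespace Vale.Agent.P232.Rigid.Core

theorem tdist_sq (S : Finset (Fin 3)) (x : R3) :
    tdist S x ^ 2 = ∑ j ∈ S, dist1 (x j - (0 : R3) j) ^ 2 := by
  rw [tdist, EuclideanSpace.norm_eq, Real.sq_sqrt (Finset.sum_nonneg fun i _ => sq_nonneg _)]
  simp only [emb, Real.norm_eq_abs, sq_abs, ite_pow, zero_pow two_ne_zero, Finset.sum_ite_mem,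
    Finset.univ_inter, Pi.zero_apply, sub_zero]
  rfl

/-- The volume of a body does not depend on the centre. -/
theorem volume_body_centre (s : Finset (Fin 3)) (R : ℝ) (c : R3) :
    volume.real (body s R c ∩ cube) = volume.real (body s R 0 ∩ cube) := by
  rw [← setIntegral_ind measurableSet_body, ← setIntegral_ind measurableSet_body]
  have e : ∀ x, ind (body s R c) x = ind (body s R 0) (x + -c) := fun x => by
    simp only [ind, indicator, body, mem_ofPred_eq, Pi.add_apply, Pi.neg_apply, Pi.zero_apply,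
      sub_zero, ← sub_eq_add_neg, Pi.sub_apply]
    rfl
  simp only [e]
  refine setIntegral_comp_add (fun x k => ?_) (-c)
  simp only [ind, indicator]
  classical
  exact if_congr (eq_iff_iff.1 (body_periodic (s := s) (R := R) (c := 0) x k)) rfl rfl

/-- An open body has the volume of the closed tube of the same radius. -/
theorem volume_body_zero (S : Finset (Fin 3)) {R : ℝ} (hR : 0 < R) {p : ℝ → ℝ}
    (hp : ContinuousAt p R) (hS : ∀ t ∈ Ioc (0 : ℝ) R, tubeVol S t = p t) :
    volume.real (body S R 0 ∩ cube) = p R := by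
  have hfin : ∀ T : Set R3, volume (T ∩ cube) ≠ ⊤ := fun T =>
    ne_top_of_le_ne_top (volume_cube ▸ ENNReal.one_ne_top) (measure_mono inter_subset_right)
  refine le_antisymm ?_ ?_
  · rw [← hS R ⟨hR, le_rfl⟩, tubeVol]
    refine measureReal_mono (fun x hx => ⟨hx.2, ?_⟩) ?_
    · have h : ∑ j ∈ S, dist1 (x j - (0 : R3) j) ^ 2 < R ^ 2 := hx.1
      rw [← tdist_sq] at h
      exact (pow_le_pow_iff_left₀ (norm_nonneg _) hR.le two_ne_zero).1 h.le
    · exact ne_top_of_le_ne_top (volume_cube ▸ ENNReal.one_ne_top) (measure_mono fun x hx => hx.1)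
  · refine le_of_tendsto (hp.tendsto.mono_left (nhdsWithin_le_nhds (s := Iio R))) ?_
    filter_upwards [Ioo_mem_nhdsLT hR] with t ht
    rw [← hS t ⟨ht.1, ht.2.le⟩, tubeVol]
    refine measureReal_mono (fun x hx => ⟨?_, hx.1⟩) (hfin _)
    show ∑ j ∈ S, dist1 (x j - (0 : R3) j) ^ 2 < R ^ 2
    rw [← tdist_sq]
    exact pow_lt_pow_left₀ (lt_of_le_of_lt hx.2 ht.2) (norm_nonneg _) two_ne_zero

/-- Exchanging two coordinates preserves the volume of a centred body. -/
theorem volume_body_exch (i j : Fin 3) {s t : Finset (Fin 3)}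
    (h : t.map (Equiv.swap i j).toEmbedding = s) (R : ℝ) :
    volume.real (body t R 0 ∩ cube) = volume.real (body s R 0 ∩ cube) := by
  have e : body t R 0 = Symm.exch i j ⁻¹' body s R 0 := by
    ext x
    simp only [body, mem_preimage, mem_ofPred_eq, ← h, Finset.sum_map, Equiv.coe_toEmbedding,
      Symm.exch, Function.comp_apply, Equiv.swap_apply_self, Pi.zero_apply]
  rw [e, measureReal_def, measureReal_def, ← Symm.exch_preimage_cube i j, ← preimage_inter,
    (Symm.measurePreserving_exch i j).measure_preimage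
      (measurableSet_body.inter measurableSet_cube).nullMeasurableSet,
    Symm.exch_preimage_cube]

theorem shape_slab {V : ℝ} (hV : V ∈ Ioc (0 : ℝ) (1 / 2)) (hc : candidate V = 2) :
    Shape V {2} (V / 2) := by
  refine ⟨by simp, by linarith [hV.1], by linarith [hV.2], fun c => ?_, ?_⟩
  · rw [volume_body_centre, volume_body_exch 0 2 (s := {0}) (by decide),
      volume_body_zero {0} (by linarith [hV.1]) (p := fun t => 2 * t ^ 1) (by fun_prop)
        fun t ht => tubeVol_one ⟨ht.1.le, by linarith [ht.2, hV.2]⟩]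
    ring
  · rw [hc]
    have := hV.1.ne'
    simp [field]

theorem shape_tube {V R : ℝ} (hR : 0 < R) (hR' : R < 1 / 2) (hV : Real.pi * R ^ 2 = V)
    (hc : candidate V = 2 * V / R) : Shape V {1, 2} R := by
  refine ⟨by simp, hR, hR', fun c => ?_, ?_⟩
  · rw [volume_body_centre, volume_body_exch 0 2 (s := {0, 1}) (by decide),
      volume_body_zero {0, 1} hR (p := fun t => Real.pi * t ^ 2) (by fun_prop)
        fun t ht => tubeVol_two ⟨ht.1.le, by linarith [ht.2]⟩]
    exact hV
  · rw [hc, Finset.card_pair (by decide : (1 : Fin 3) ≠ 2)]; norm_num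

theorem shape_ball {V R : ℝ} (hR : 0 < R) (hR' : R < 1 / 2) (hV : 4 * Real.pi / 3 * R ^ 3 = V)
    (hc : candidate V = 3 * V / R) : Shape V Finset.univ R := by
  refine ⟨Finset.univ_nonempty, hR, hR', fun c => ?_, ?_⟩
  · rw [volume_body_centre,
      volume_body_zero Finset.univ hR (p := fun t => 4 * Real.pi / 3 * t ^ 3) (by fun_prop)
        fun t ht => tubeVol_three ⟨ht.1.le, by linarith [ht.2]⟩]
    exact hV
  · rw [hc]; norm_num

end Vale.Agent.P232.Rigid.Core
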