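import Vale.Agent.P232.Rigid.Core.CaseDefs
import Vale.Agent.P232.Rigid.Core.Specs
import Vale.Agent.P232.Rigid.Core.Shapes
import Vale.Agent.P232.Slice.Cal

/-!
# P232 rigidity core: assembly of the classification of sorted relative minimisers
-/

open MeasureTheory Set Real Filter
open scoped Topology ENNReal

namespace Vale.Agent.P232.Rigid.Core

variable {V s : ℝ} {E : Set R3} {g : ℕ → R3 → ℝ}

theorem ballRad_spec (hV : 0 < V) : 0 < ballRad V ∧ π * ballRad V ^ 3 / 6 = V := by
  have h : 0 < 6 * V / π := by positivity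
  refine ⟨rpow_pos_of_pos h _, ?_⟩
  rw [ballRad, ← rpow_natCast _ 3, ← rpow_mul h.le]
  norm_num
  field_simp

/-- The volume of a ball octant as a function of its largest slice. -/
noncomputable def octVol (a : ℝ) : ℝ := 4 * a * √a / (3 * √π)

theorem octVol_lt {a b : ℝ} (ha : 0 ≤ a) (h : a < b) : octVol a < octVol b := by
  unfold octVol
  refine div_lt_div_of_pos_right ?_ (by positivity)
  exact mul_lt_mul' (by linarith) (sqrt_lt_sqrt ha h) (sqrt_nonneg _) (by linarith)

theorem octVol_ballTop (hV : 0 < V) : octVol (ballTop V) = V := by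
  obtain ⟨hR, hR3⟩ := ballRad_spec hV
  have h : √(ballTop V) = √π * ballRad V / 2 := by
    rw [sqrt_eq_iff_mul_self_eq (by unfold ballTop; positivity) (by positivity), ballTop,
      show √π * ballRad V / 2 * (√π * ballRad V / 2) = (√π * √π) * ballRad V ^ 2 / 4 by ring,
      mul_self_sqrt pi_pos.le]
  conv_rhs => rw [← hR3]
  rw [octVol, h, ballTop]
  field_simp
  ring

theorem tendsto_ballTop (hV : 0 < V) {a : ℕ → ℝ} (ha : ∀ k, 0 ≤ a k)
    (h : Tendsto (fun k => octVol (a k)) atTop (𝓝 V)) : Tendsto a atTop (𝓝 (ballTop V)) := by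
  have h0 : 0 ≤ ballTop V := by unfold ballTop; positivity
  refine tendsto_order.2 ⟨fun b hb => ?_, fun b hb => ?_⟩
  · rcases lt_or_ge b 0 with hb0 | hb0
    · exact Eventually.of_forall fun k => hb0.trans_le (ha k)
    · filter_upwards [h.eventually (eventually_gt_nhds (octVol_ballTop hV ▸ octVol_lt hb0 hb))] with k hk
      by_contra hcon
      rcases (not_lt.1 hcon).eq_or_lt with e | hlt
      · rw [e] at hk; exact lt_irrefl _ hk
      · exact lt_asymm hk (octVol_lt (ha k) hlt)
  · filter_upwards [h.eventually (eventually_lt_nhds (octVol_ballTop hV ▸ octVol_lt h0 hb))] with k hk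
    by_contra hcon
    rcases (not_lt.1 hcon).eq_or_lt with e | hlt
    · rw [← e] at hk; exact lt_irrefl _ hk
    · exact lt_asymm hk (octVol_lt (h0.trans hb.le) hlt)

theorem candidate_half : candidate (1 / 2) = 2 := by
  have hh : min (1 / 2 : ℝ) (1 - 1 / 2) = 1 / 2 := by norm_num
  simp only [candidate, hh]
  refine min_eq_right (le_min ?_ ?_)
  · refine le_of_pow_le_pow_left₀ (three_ne_zero (α := ℕ)) (by positivity) ?_
    have hx : ∀ x : ℝ, 0 ≤ x → ∀ q : ℝ, (x ^ q) ^ 3 = x ^ (q * 3) := fun x hx q => by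
      rw [← rpow_natCast _ 3, ← rpow_mul hx]; norm_num
    rw [mul_pow, hx _ (by positivity), hx _ (by positivity)]
    norm_num
    nlinarith [pi_gt_three]
  · have : (1 : ℝ) ≤ √(π * (1 / 2)) := one_le_sqrt.2 (by linarith [pi_gt_three])
    linarith

/-- Rotating a sequence whose far edge stays below the cut. -/
theorem seqC_rot (h : Seq V E g s) (hs : ∀ k, CubeSorted (g k))
    (hcut : ∀ k, lenZ (g k) s 0 1 ≤ cut) (ha : ∀ k, levelArea (rot (g k)) s = levelArea (g k) s)
    (hslc : ∀ k, Slc V (rot (g k)) s) (hlen : ∀ k, LenC (rot (g k)) s)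
    (hcal : ∀ k, Cal (rot (g k)) s) :
    SeqC V (rotPt ⁻¹' E) (fun k => rot (g k)) s where
  meas := measurePreserving_rotPt.measurable h.meas
  good k := (h.good k).rot
  agree := (measurePreserving_restrict_cube measurePreserving_rotPt
    fun _ => rotPt_mem_cube).quasiMeasurePreserving.ae h.agree
  vol := by simpa only [fun k => levelVol_rot (h.good k).smooth.continuous s] using h.vol
  half k := (levelVol_rot (h.good k).smooth.continuous s).trans_le (h.half k)
  area ε hε := by simpa only [ha] using h.area ε hε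
  slc := hslc
  lenC := hlen
  cal := hcal
  contacts k := ⟨(lenY_rot_zero (g k) s).le.trans (hcut k),
    (lenX_rot_zero_le (hs k) s).trans (hcut k)⟩

theorem SeqC.comp (h : SeqC V E g s) {φ : ℕ → ℕ} (hφ : StrictMono φ) :
    SeqC V E (fun k => g (φ k)) s :=
  { h.toSeq.comp hφ with
    slc := fun _ => h.slc _, lenC := fun _ => h.lenC _, cal := fun _ => h.cal _,
    contacts := fun _ => h.contacts _ }

/-- Back through the rotation. -/
theorem ae_eq_of_rot {D Q : Set R3} (hD : rotPt ⁻¹' E =ᵐ[volume.restrict cube] D)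
    (hQ : ∀ q ∈ cube, rotPt q ∈ Q ↔ q ∈ D) : E =ᵐ[volume.restrict cube] Q := by
  have hT := measurePreserving_restrict_cube measurePreserving_rotPt fun _ => rotPt_mem_cube
  refine eventuallyEq_set.2 ?_
  filter_upwards [(hT.comp hT).quasiMeasurePreserving.ae
    ((eventuallyEq_set.1 hD).and (ae_restrict_mem (measurableSet_Icc : MeasurableSet cube)))] with p hp
  have e : rotPt (rotPt (rotPt p)) = p := by
    funext i; fin_cases i <;> simp [rotPt, pt]
  obtain ⟨h1, h2⟩ := hp
  rw [mem_preimage, ← hQ _ h2] at h1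
  simpa [e] using h1

theorem cube_coord {q : R3} (hq : q ∈ cube) (i : Fin 3) : q i ∈ Icc (0 : ℝ) 1 := ⟨hq.1 i, hq.2 i⟩

/-- The classification from the parts and the strict certificates. -/
theorem stmtSorted_of_parts (hB : StmtStrictB) (hC : StmtStrictC) (hSlab : StmtSlabCore)
    (hBall : StmtBallProfile) (hTube : StmtTubeProfile) (hDisc : StmtDiscSlices) : StmtSorted := by
  intro V hV E hE
  obtain ⟨c₁, c₂, l, hc₁, hc₂, hl, hBle, hBstrict⟩ := hB
  obtain ⟨c, m, hc, hm, hCle, hCstrict⟩ := hC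
  set j := cubeCandidate V
  have hj : 0 ≤ j := cubeCandidate_nonneg ⟨hV.1.le, by linarith [hV.2]⟩
  let PB : (R3 → ℝ) → ℝ → Prop := fun g s => cut < lenZ g s 0 1 → levelVol g s ≤ 1 / 2 →
      let P : ℝ × ℝ × ℝ × ℝ × ℝ := (sliceArea g s 0, sliceArea g s cut, sliceArea g s 1,
        lenY g s 1 cut, levelVol g s)
      ENNReal.ofReal (cut * c₁ P + (1 - cut) * c₂ P + l P * levelVol g s +
          (∫ a in sliceArea g s cut..sliceArea g s 0, sig (c₁ P) (l P) (pPre (lenY g s 1 cut)) a) +
          ∫ a in sliceArea g s 1..sliceArea g s cut, sig (c₂ P) (l P) (pPost (lenY g s 1 cut)) a)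
        ≤ levelArea g s
  let PC : (R3 → ℝ) → ℝ → Prop := fun g s =>
      lenY g s 1 0 ≤ cut → lenX g s 1 0 ≤ cut → levelVol g s ≤ 1 / 2 →
      let P : ℝ × ℝ × ℝ := (sliceArea g s 0, sliceArea g s 1, levelVol g s)
      ENNReal.ofReal (c P + m P * levelVol g s +
        ∫ a in sliceArea g s 1..sliceArea g s 0, sig (c P) (m P) pC a) ≤ levelArea g s
  obtain ⟨E', g, s, hcase, hseq, hg⟩ := exists_seq hE hV
    (fun g s => Slc V g s ∧ LenLow g s ∧ Slc V (rot g) s ∧ LenC (rot g) s ∧ Cal (rot g) s ∧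
      levelArea (rot g) s = levelArea g s ∧ PB g s ∧ PC (rot g) s)
    (fun g hg hs => by
      filter_upwards [ae_slc stmtSlice V hg, ae_lenLow hg, ae_slc stmtSlice V hg.rot,
        ae_lenC hg.rot, ae_cal hg.rot, levelArea_rot stmtCoarea hg,
        level_caseB_bound stmtSlice stmtPlanarNone stmtPlanarOne stmtPlanarBoth hc₁ hc₂ hl hBle hg hs,
        level_caseC_bound stmtSlice stmtPlanarNone stmtPlanarOne stmtPlanarBoth tiltConst_077 hc hm
          hCle hg.rot] with s h1 h2 h3 h4 h5 h6 h7 h8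
      exact ⟨h1, h2, h3, h4, h5, h6, h7, h8⟩)
  have hVlim := (Smooth.continuous_cubeCandidate.tendsto V).comp hseq.vol
  suffices key : ∃ sh R, Shape V sh R ∧ E' =ᵐ[volume.restrict cube] quad sh R by
    obtain ⟨sh, R, hS, hA⟩ := key
    rcases hcase with rfl | ⟨rfl, rfl⟩
    · exact ⟨sh, R, hS, hA⟩
    -- at volume one half only slabs occur and the reflection keeps them
    have harea := hS.area
    rw [candidate_half, eq_div_iff hS.pos.ne'] at harea
    have hcard : sh.card = 1 := by
      have h1 : 1 ≤ sh.card := hS.nonempty.card_pos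
      have h2 : (sh.card : ℝ) < 2 := by nlinarith [hS.lt_half]
      have h3 : sh.card < 2 := by exact_mod_cast h2
      omega
    obtain ⟨i, rfl⟩ := Finset.card_eq_one.1 hcard
    have hR : 2 * R = 1 / 2 := by rw [hcard, Nat.cast_one] at harea; linarith
    refine ⟨{i}, R, hS, ?_⟩
    have hne : ∀ᵐ p : R3, p i ≠ 1 / 2 := by
      rw [volume_pi]
      exact (Measure.quasiMeasurePreserving_eval (μ := fun _ : Fin 3 => (volume : Measure ℝ)) i).ae
        ((countable_singleton (1 / 2 : ℝ)).ae_notMem (volume : Measure ℝ))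
    have hT := (measurePreserving_restrict_cube measurePreserving_one_sub
      fun _ => one_sub_mem_cube).quasiMeasurePreserving.ae (eventuallyEq_set.1 hA)
    refine eventuallyEq_set.2 ?_
    filter_upwards [hT, ae_restrict_of_ae hne,
      ae_restrict_mem (measurableSet_Icc : MeasurableSet cube)] with p hp hpi hpc
    obtain ⟨h0, h1⟩ := cube_coord hpc i
    simp only [flipSet, quad, mem_ofPred_eq, Finset.sum_singleton, hR, Pi.sub_apply, Pi.one_apply,
      sub_sub_cancel] at hp ⊢
    rw [← not_iff_not, hp, not_lt, sq_lt_sq₀ (by linarith) (by norm_num),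
      sq_le_sq₀ (by norm_num) h0]
    constructor
    · intro hlt; linarith
    · intro hle; have := lt_of_le_of_ne hle (Ne.symm hpi); linarith
  by_cases hcl : ∃ᶠ k in atTop, cut < lenZ (g k) s 0 1
  · -- slices below the cut touch both far edges
    obtain ⟨φ, hφ, hφc⟩ := extraction_of_frequently_atTop hcl
    have h := hseq.comp hφ
    have hlim : ∀ δ > 0, ∀ᶠ k in atTop,
        1 - δ < sliceArea (g (φ k)) s 0 ∧ sliceArea (g (φ k)) s 1 < δ := fun δ hδ => by
      obtain ⟨η, hη, himp⟩ := hBstrict (min δ (V / 2)) (lt_min hδ (half_pos hV.1))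
      filter_upwards [h.area (η / 2) (half_pos hη),
        h.vol.eventually (eventually_gt_nhds (show V / 2 < V by linarith [hV.1])),
        (hVlim.comp hφ.tendsto_atTop).eventually
          (eventually_gt_nhds (show j - η / 2 < j by linarith))] with k hk hkv hkc
      have hcut : cut ∈ Icc (0 : ℝ) 1 := by unfold cut; norm_num
      have hgk := h.good k
      have hb := (ENNReal.ofReal_le_ofReal_iff (by linarith)).1
        (((hg (φ k)).2.2.2.2.2.2.2.1 (hφc k) (h.half k)).trans hk)
      have := himp _ _ _ _ _ (sliceArea_mem (g (φ k)) s 1).1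
        (antitoneOn_sliceArea hgk s hcut (right_mem_Icc.2 zero_le_one) hcut.2)
        (antitoneOn_sliceArea hgk s (left_mem_Icc.2 zero_le_one) hcut hcut.1)
        (sliceArea_mem (g (φ k)) s 0).2 (lenY_mem (g (φ k)) s 1 cut).1
        (lenY_le_sliceArea hgk s hcut) ((min_le_right _ _).trans hkv.le) (h.half k)
        (levelVol_split_bounds hgk s hcut).1 (levelVol_split_bounds hgk s hcut).2
        (by simp only [boundB, Function.comp_apply] at hkc ⊢; linarith)
      exact ⟨by linarith [this.1, min_le_left δ (V / 2)], this.2.trans_le (min_le_left _ _)⟩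
    obtain ⟨hcand, hA⟩ := hSlab V hV E' _ s h (fun k => (hg _).2.1) (fun k => (hg _).2.2.1)
      (Metric.tendsto_nhds.2 fun δ hδ => (hlim δ hδ).mono fun k hk => by
        rw [Real.dist_eq, abs_lt]; constructor <;> linarith [(sliceArea_mem (g (φ k)) s 0).2, hk.1])
      (Metric.tendsto_nhds.2 fun δ hδ => (hlim δ hδ).mono fun k hk => by
        rw [Real.dist_eq, abs_lt]; constructor <;> linarith [(sliceArea_mem (g (φ k)) s 1).1, hk.2])
    refine ⟨{2}, V / 2, shape_slab hV hcand, hA.trans (eventuallyEq_set.2 ?_)⟩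
    filter_upwards [ae_restrict_mem (measurableSet_Icc : MeasurableSet cube)] with p hp
    simp only [quad, mem_ofPred_eq, Finset.sum_singleton, mul_div_cancel₀ V (two_ne_zero (α := ℝ))]
    exact (sq_lt_sq₀ (cube_coord hp 2).1 hV.1.le).symm
  -- all contacts stay below the cut
  obtain ⟨N, hN⟩ := eventually_atTop.1 ((not_frequently.1 hcl).mono fun k hk => not_lt.1 hk)
  have hψ : StrictMono fun n => n + N := fun a b hab => Nat.add_lt_add_right hab N
  have h := seqC_rot (hseq.comp hψ) (fun k => (hg _).1) (fun k => hN _ (Nat.le_add_left N k))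
    (fun k => (hg _).2.2.2.2.2.2.1) (fun k => (hg _).2.2.2.1) (fun k => (hg _).2.2.2.2.1)
    (fun k => (hg _).2.2.2.2.2.1)
  set G : ℕ → R3 → ℝ := fun k => rot (g (k + N))
  have hlim : ∀ δ > 0, ∀ᶠ k in atTop,
      (sliceArea (G k) s 1 < δ ∧ |octVol (sliceArea (G k) s 0) - V| < δ) ∨
        (|sliceArea (G k) s 0 - V| < δ ∧ |sliceArea (G k) s 1 - V| < δ) := fun δ hδ => by
    obtain ⟨η, hη, himp⟩ := hCstrict V hV δ hδ
    filter_upwards [h.area (η / 2) (half_pos hη),
      (Metric.tendsto_nhds.1 h.vol η hη),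
      ((Smooth.continuous_cubeCandidate.tendsto V).comp h.vol).eventually
        (eventually_gt_nhds (show j - η / 2 < j by linarith))] with k hk hkv hkc
    have hb := (ENNReal.ofReal_le_ofReal_iff (by linarith)).1
      (((hg (k + N)).2.2.2.2.2.2.2.2 (h.contacts k).1 (h.contacts k).2 (h.half k)).trans hk)
    exact himp _ _ _ (sliceArea_mem (G k) s 1).1 (levelVol_bounds (h.good k) s).1
      (levelVol_bounds (h.good k) s).2 (sliceArea_mem (G k) s 0).2 (h.half k)
      (by rwa [Real.dist_eq] at hkv)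
      (by simp only [boundC, Function.comp_apply] at hkc ⊢; linarith)
  by_cases htube : ∀ n : ℕ, ∃ᶠ k in atTop, |sliceArea (G k) s 0 - V| < 1 / ((n : ℝ) + 1) ∧
      |sliceArea (G k) s 1 - V| < 1 / ((n : ℝ) + 1)
  · obtain ⟨φ, hφ, hφP⟩ := extraction_forall_of_frequently htube
    have ht : ∀ z, (∀ n, |sliceArea (G (φ n)) s z - V| < 1 / ((n : ℝ) + 1)) →
        Tendsto (fun n => sliceArea (G (φ n)) s z) atTop (𝓝 V) := fun z hz => by
      rw [tendsto_iff_dist_tendsto_zero]
      exact squeeze_zero (fun n => dist_nonneg) (fun n => (Real.dist_eq _ _).trans_le (hz n).le)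
        tendsto_one_div_add_atTop_nhds_zero_nat
    obtain ⟨hcand, hπ, ψ, hψ', htight⟩ := hTube V hV _ _ s (h.comp hφ)
      (ht 0 fun n => (hφP n).1) (ht 1 fun n => (hφP n).2)
    have hV7 : V ≤ 7 / 20 := by nlinarith [pi_gt_three, hV.1]
    have hD := hDisc V _ _ s ((h.comp hφ).comp hψ') (fun _ => V) measurable_const
      (fun _ => ⟨hV.1.le, hV7⟩) htight
    have hR2 : √(V / π) ^ 2 = V / π := sq_sqrt (div_nonneg hV.1.le pi_pos.le)
    refine ⟨{1, 2}, √(V / π), shape_tube (sqrt_pos.2 (div_pos hV.1 pi_pos)) ?_ ?_ ?_,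
      ae_eq_of_rot hD fun q _ => ?_⟩
    · rw [Real.sqrt_lt' (by norm_num), div_lt_iff₀ pi_pos]
      nlinarith [pi_gt_three, hV.1]
    · rw [hR2]; field_simp
    · rw [hcand, sqrt_div hV.1.le, sqrt_mul pi_pos.le]
      have hsV := sqrt_pos.2 hV.1
      field_simp
      rw [sq_sqrt hV.1.le]
    · simp only [quad, mem_ofPred_eq, Finset.sum_insert (show (1 : Fin 3) ∉ ({2} : Finset (Fin 3)) by decide),
        Finset.sum_singleton, mul_pow, hR2]
      simp [rotPt, pt]
      ring_nf
  -- a ball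
  obtain ⟨n₀, hn₀⟩ := not_forall.1 htube
  have hball : ∀ δ > 0, ∀ᶠ k in atTop,
      sliceArea (G k) s 1 < δ ∧ |octVol (sliceArea (G k) s 0) - V| < δ := fun δ hδ => by
    filter_upwards [hlim (min δ (1 / ((n₀ : ℝ) + 1))) (lt_min hδ (by positivity)),
      not_frequently.1 hn₀] with k hk hk'
    rcases hk with hk | hk
    · exact ⟨hk.1.trans_le (min_le_left _ _), hk.2.trans_le (min_le_left _ _)⟩
    · exact absurd ⟨hk.1.trans_le (min_le_right _ _), hk.2.trans_le (min_le_right _ _)⟩ hk'
  obtain ⟨hcand, hR23, ψ, hψ', htight⟩ := hBall V hV _ _ s h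
    (tendsto_ballTop hV.1 (fun k => (sliceArea_mem (G k) s 0).1)
      (Metric.tendsto_nhds.2 fun δ hδ => (hball δ hδ).mono fun k hk => hk.2))
    (Metric.tendsto_nhds.2 fun δ hδ => (hball δ hδ).mono fun k hk => by
      rw [Real.dist_eq, sub_zero, abs_of_nonneg (sliceArea_mem (G k) s 1).1]; exact hk.1)
  obtain ⟨hR0, hR3⟩ := ballRad_spec hV.1
  set R := ballRad V
  have hD := hDisc V _ _ s (h.comp hψ') (fun z => π / 4 * max (R ^ 2 - z ^ 2) 0) (by fun_prop)
    (fun z => ⟨by positivity, by
      have : max (R ^ 2 - z ^ 2) 0 ≤ 4 / 9 := max_le (by nlinarith [sq_nonneg z]) (by norm_num)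
      calc π / 4 * max (R ^ 2 - z ^ 2) 0 ≤ π / 4 * (4 / 9) := by gcongr
        _ ≤ 7 / 20 := by linarith [pi_lt_d2]⟩) htight
  refine ⟨Finset.univ, R / 2, shape_ball (half_pos hR0) (by linarith) ?_ ?_,
    ae_eq_of_rot hD fun q _ => ?_⟩
  · conv_rhs => rw [← hR3]
    ring
  · rw [hcand, ← hR3]; field_simp; ring
  · have e : 4 * (π / 4 * max (R ^ 2 - q 2 ^ 2) 0) / π = max (R ^ 2 - q 2 ^ 2) 0 := by field_simp
    simp only [quad, mem_ofPred_eq, Fin.sum_univ_three, e, lt_max_iff]
    simp [rotPt, pt]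
    constructor
    · intro h; left; nlinarith
    · rintro (h | h)
      · nlinarith
      · nlinarith [sq_nonneg (q 0), sq_nonneg (q 1)]

end Vale.Agent.P232.Rigid.Core
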