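import Vale.Agent.P232.Slice.Planar

/-!
# P232 rigidity core: one variable

Perturbations of the fields calibrating balls and discs by the hats `hat r`, and recovery of a
nonincreasing profile from the integrals of its truncations.
-/

open MeasureTheory Set Real Filter
open scoped Topology

namespace Vale.Agent.P232.Rigid.Core

/-- The projection to the unit interval. -/
noncomputable def clamp (t : ℝ) : ℝ := max 0 (min t 1)

theorem clamp_mem (t : ℝ) : clamp t ∈ Icc (0 : ℝ) 1 :=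
  ⟨le_max_left _ _, max_le zero_le_one (min_le_right _ _)⟩

theorem clamp_of_mem {t : ℝ} (h : t ∈ Icc (0 : ℝ) 1) : clamp t = t := by
  rw [clamp, min_eq_left h.2, max_eq_right h.1]

/-- The hat with the kink at `r`. -/
noncomputable def hat (r t : ℝ) : ℝ := min (clamp t) r - r * clamp t

theorem continuous_hat (r : ℝ) : Continuous (hat r) := by unfold hat clamp; fun_prop

theorem hat_bounds {r : ℝ} (hr : r ∈ Icc (0 : ℝ) 1) (t : ℝ) :
    0 ≤ hat r t ∧ hat r t ≤ clamp t ∧ hat r t ≤ 1 - clamp t := by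
  obtain ⟨h0, h1⟩ := clamp_mem t
  unfold hat
  rcases le_total (clamp t) r with h | h
  · rw [min_eq_left h]
    refine ⟨?_, ?_, ?_⟩ <;> nlinarith [hr.1, hr.2]
  · rw [min_eq_right h]
    refine ⟨?_, ?_, ?_⟩ <;> nlinarith [hr.1, hr.2]

/-- The perturbed linear field. -/
noncomputable def fld (r ε t : ℝ) : ℝ := t - ε * hat r t

theorem continuous_fld (r ε : ℝ) : Continuous (fld r ε) :=
  continuous_id.sub (continuous_const.mul (continuous_hat r))

theorem fld_zero (r t : ℝ) : fld r 0 t = t := by simp [fld]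

theorem fld_nonneg {r ε t : ℝ} (hr : r ∈ Icc (0 : ℝ) 1) (hε : |ε| ≤ 1 / 16) (ht : 0 ≤ t) :
    0 ≤ fld r ε t := by
  obtain ⟨h0, h1, -⟩ := hat_bounds hr t
  have hc : clamp t ≤ t := max_le ht (min_le_left _ _)
  have := abs_le.1 hε
  unfold fld
  nlinarith

/-- Second order lower bound for a perturbed square root. -/
theorem sqrt_perturb {b c d ε : ℝ} (hb : 0 ≤ b) (hc : |c| ≤ b) (hd0 : 0 ≤ d) (hd : d ≤ b)
    (hε : |ε| ≤ 1 / 16) :
    √b + ε * (c / √b) - 8 * ε ^ 2 * √b ≤ √(b + 2 * ε * c - ε ^ 2 * d) := by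
  rcases hb.eq_or_lt with rfl | hb'
  · simp
  obtain ⟨e, he, hce⟩ : ∃ e, |e| ≤ 1 ∧ c = b * e :=
    ⟨c / b, by rw [abs_div, abs_of_pos hb', div_le_one hb']; exact hc, by field_simp⟩
  obtain ⟨f, hf0, hf1, hdf⟩ : ∃ f, 0 ≤ f ∧ f ≤ 1 ∧ d = b * f :=
    ⟨d / b, div_nonneg hd0 hb, div_le_one_of_le₀ hd hb, by field_simp⟩
  subst hce hdf
  rw [show b + 2 * ε * (b * e) - ε ^ 2 * (b * f) = b * (1 + (2 * ε * e - ε ^ 2 * f)) by ring,
    sqrt_mul hb, show ε * (b * e / √b) = √b * (ε * e) by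
      rw [mul_comm b e, mul_div_assoc, div_sqrt]; ring]
  rw [show √b + √b * (ε * e) - 8 * ε ^ 2 * √b = √b * (1 + ε * e - 8 * ε ^ 2) by ring]
  refine mul_le_mul_of_nonneg_left (Real.le_sqrt_of_sq_le ?_) (sqrt_nonneg _)
  have h1 := abs_le.1 he
  have h2 := abs_le.1 hε
  have he2 : e ^ 2 ≤ 1 := by nlinarith
  have hεe : |ε * e| ≤ 1 / 16 := by
    rw [abs_mul]; nlinarith [abs_nonneg ε, abs_nonneg e]
  have h3 := abs_le.1 hεe
  have h4 : ε ^ 2 ≤ 1 / 256 := by nlinarith
  have h5 := mul_nonpos_of_nonneg_of_nonpos (sq_nonneg ε)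
    (show e ^ 2 - 16 - 16 * (ε * e) + 64 * ε ^ 2 + f ≤ 0 by linarith)
  nlinarith [h5]

/-- The projection weight of the perturbed ball field. -/
noncomputable def ballWt (r ε t : ℝ) : ℝ := √(1 - fld r ε t ^ 2 / t)

/-- The projection weight of the perturbed disc field. -/
noncomputable def discWt (r ε t : ℝ) : ℝ := √(1 - fld r ε t ^ 2)

theorem ball_perturb {r ε t : ℝ} (hr : r ∈ Icc (0 : ℝ) 1) (hε : |ε| ≤ 1 / 16)
    (ht : t ∈ Icc (0 : ℝ) 1) :
    fld r ε t ^ 2 ≤ t ∧
      √(1 - t) + ε * (hat r t / √(1 - t)) - 8 * ε ^ 2 * √(1 - t) ≤ ballWt r ε t := by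
  obtain ⟨h0, h1, h2⟩ := hat_bounds hr t
  rw [clamp_of_mem ht] at h1 h2
  rcases ht.1.eq_or_lt with rfl | ht0
  · have : hat r 0 = 0 := le_antisymm h1 h0
    simp [fld, ballWt, this]
    nlinarith
  have he : hat r t ^ 2 / t ≤ hat r t := by
    rw [div_le_iff₀ ht0]; nlinarith
  have e : 1 - fld r ε t ^ 2 / t = (1 - t) + 2 * ε * hat r t - ε ^ 2 * (hat r t ^ 2 / t) := by
    unfold fld; field_simp; ring
  refine ⟨?_, ?_⟩
  · have hb := abs_le.1 hε
    have : 0 ≤ 1 - fld r ε t ^ 2 / t := by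
      have i1 : -(hat r t / 8) ≤ 2 * ε * hat r t := by nlinarith
      have i2 : ε ^ 2 * (hat r t ^ 2 / t) ≤ 1 / 256 * (1 - t) :=
        mul_le_mul (by nlinarith) (he.trans h2) (by positivity) (by norm_num)
      rw [e]; linarith [ht.2]
    rw [sub_nonneg, div_le_one ht0] at this
    exact this
  · rw [ballWt, e]
    exact sqrt_perturb (by linarith [ht.2]) (by rw [abs_of_nonneg h0]; exact h2) (by positivity)
      (he.trans h2) hε

theorem disc_perturb {r ε t : ℝ} (hr : r ∈ Icc (0 : ℝ) 1) (hε : |ε| ≤ 1 / 16)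
    (ht : t ∈ Icc (0 : ℝ) 1) :
    fld r ε t ^ 2 ≤ 1 ∧
      √(1 - t ^ 2) + ε * (t * hat r t / √(1 - t ^ 2)) - 8 * ε ^ 2 * √(1 - t ^ 2) ≤
        discWt r ε t := by
  obtain ⟨h0, h1, h2⟩ := hat_bounds hr t
  rw [clamp_of_mem ht] at h1 h2
  have hb1 : 1 - t ≤ 1 - t ^ 2 := by nlinarith [ht.1, ht.2]
  have hc : t * hat r t ≤ 1 - t ^ 2 := by nlinarith [ht.1, ht.2]
  have hd : hat r t ^ 2 ≤ 1 - t ^ 2 := by nlinarith [ht.1, ht.2]
  have e : 1 - fld r ε t ^ 2 = (1 - t ^ 2) + 2 * ε * (t * hat r t) - ε ^ 2 * hat r t ^ 2 := by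
    unfold fld; ring
  refine ⟨?_, ?_⟩
  · have hb := abs_le.1 hε
    have hp := mul_nonneg ht.1 h0
    have i1 : -(t * hat r t / 8) ≤ 2 * ε * (t * hat r t) := by nlinarith
    have i2 : ε ^ 2 * hat r t ^ 2 ≤ 1 / 256 * (1 - t ^ 2) :=
      mul_le_mul (by nlinarith) hd (sq_nonneg _) (by norm_num)
    linarith [e, sq_nonneg (hat r t)]
  · rw [discWt, e]
    exact sqrt_perturb (by linarith [ht.2]) (by rw [abs_of_nonneg (mul_nonneg ht.1 h0)]; exact hc)
      (sq_nonneg _) hd hε

/-- A quantity whose small multiples are at most quadratic vanishes. -/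
theorem eq_zero_of_quadratic {X K : ℝ}
    (h : ∀ m : ℕ, 16 ≤ m → ∀ σ : Bool,
      (if σ then 1 else -1) / (m : ℝ) * X ≤ K * ((if σ then 1 else -1) / (m : ℝ)) ^ 2) :
    X = 0 := by
  have key : ∀ m : ℕ, 16 ≤ m → X ≤ K / m ∧ -X ≤ K / m := by
    intro m hm
    have h1 := h m hm true
    have h2 := h m hm false
    simp only [if_true, Bool.false_eq_true, if_false] at h1 h2
    have hm0 : (0 : ℝ) < m := by exact_mod_cast (by omega : 0 < m)
    constructor
    · have := mul_le_mul_of_nonneg_left h1 hm0.le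
      field_simp at this ⊢
      linarith
    · have := mul_le_mul_of_nonneg_left h2 hm0.le
      field_simp at this ⊢
      linarith
  have ht : Tendsto (fun m : ℕ => K / (m : ℝ)) atTop (𝓝 0) := tendsto_const_div_atTop_nhds_zero_nat K
  have a := ge_of_tendsto ht (eventually_atTop.2 ⟨16, fun m hm => (key m hm).1⟩)
  have b := ge_of_tendsto ht (eventually_atTop.2 ⟨16, fun m hm => (key m hm).2⟩)
  linarith

/-- Integration by parts against the density `m = -Z'` of a profile ending at `0`. -/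
theorem integral_hat_density {Z m : ℝ → ℝ} (hZ : ContinuousOn Z (Icc 0 1)) (h1 : Z 1 = 0)
    (hd : ∀ t ∈ Ioo (0 : ℝ) 1, HasDerivAt Z (-m t) t) (hm : ∀ t ∈ Ioo (0 : ℝ) 1, 0 ≤ m t)
    {r : ℝ} (hr : r ∈ Icc (0 : ℝ) 1) :
    IntervalIntegrable m volume 0 1 ∧
      ∫ t in (0 : ℝ)..1, hat r t * m t = (∫ t in (0 : ℝ)..r, Z t) - r * ∫ t in (0 : ℝ)..1, Z t := by
  have hu : uIcc (0 : ℝ) 1 = Icc 0 1 := uIcc_of_le zero_le_one
  have hi : IntervalIntegrable m volume 0 1 := by
    refine intervalIntegral.intervalIntegrable_deriv_of_nonneg (g := fun t => -Z t)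
      (by rw [hu]; exact hZ.neg) (fun t ht => ?_) fun t ht => ?_
    · rw [min_eq_left zero_le_one, max_eq_right zero_le_one] at ht
      exact (hd t ht).neg.congr_deriv (neg_neg _)
    · rw [min_eq_left zero_le_one, max_eq_right zero_le_one] at ht
      exact hm t ht
  refine ⟨hi, ?_⟩
  have key : ∀ s ∈ Icc (0 : ℝ) 1, ∫ t in (0 : ℝ)..1, min t s * m t = ∫ t in (0 : ℝ)..s, Z t := by
    intro s hs
    have sub1 : uIcc 0 s ⊆ uIcc (0 : ℝ) 1 := by
      rw [uIcc_of_le hs.1, hu]; exact Icc_subset_Icc le_rfl hs.2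
    have sub2 : uIcc s 1 ⊆ uIcc (0 : ℝ) 1 := by
      rw [uIcc_of_le hs.2, hu]; exact Icc_subset_Icc hs.1 le_rfl
    have hmin : IntervalIntegrable (fun t => min t s * m t) volume 0 1 :=
      hi.continuousOn_mul (continuous_id.min continuous_const).continuousOn
    have hZi : IntervalIntegrable Z volume 0 1 := hZ.intervalIntegrable_of_Icc zero_le_one
    have htm : IntervalIntegrable (fun t => t * m t) volume 0 1 := hi.continuousOn_mul continuousOn_id
    rw [← intervalIntegral.integral_add_adjacent_intervals (hmin.mono_set sub1) (hmin.mono_set sub2)]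
    have e1 : ∫ t in (0 : ℝ)..s, min t s * m t = (∫ t in (0 : ℝ)..s, Z t) - s * Z s := by
      have h := intervalIntegral.integral_eq_sub_of_hasDerivAt_of_le (f := fun t => -(t * Z t))
        (f' := fun t => t * m t - Z t) hs.1
        ((continuousOn_id.mul (hZ.mono (Icc_subset_Icc le_rfl hs.2))).neg)
        (fun t ht => (((hasDerivAt_id' t).mul (hd t ⟨ht.1, ht.2.trans_le hs.2⟩)).neg).congr_deriv
          (by ring))
        ((htm.mono_set sub1).sub (hZi.mono_set sub1))
      rw [intervalIntegral.integral_sub (htm.mono_set sub1) (hZi.mono_set sub1)] at h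
      rw [intervalIntegral.integral_congr (g := fun t => t * m t) fun t ht => by
        rw [uIcc_of_le hs.1] at ht; simp only [min_eq_left ht.2]]
      simp only [zero_mul, neg_zero, sub_zero] at h
      linarith
    have e2 : ∫ t in s..1, min t s * m t = s * Z s := by
      rw [intervalIntegral.integral_congr (g := fun t => s * m t) fun t ht => by
        rw [uIcc_of_le hs.2] at ht; simp only [min_eq_right ht.1], intervalIntegral.integral_const_mul,
        intervalIntegral.integral_eq_sub_of_hasDerivAt_of_le (f := fun t => -Z t) hs.2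
          (hZ.mono (Icc_subset_Icc hs.1 le_rfl)).neg
          (fun t ht => (hd t ⟨hs.1.trans_lt ht.1, ht.2⟩).neg.congr_deriv (neg_neg _))
          (hi.mono_set sub2)]
      simp [h1]
    linarith
  have e : ∫ t in (0 : ℝ)..1, hat r t * m t
      = ∫ t in (0 : ℝ)..1, (min t r * m t - r * (min t 1 * m t)) :=
    intervalIntegral.integral_congr fun t ht => by
      rw [hu] at ht
      simp only [hat, clamp_of_mem ht, min_eq_left ht.2]; ring
  have hii : ∀ c, IntervalIntegrable (fun t => min t c * m t) volume 0 1 := fun c =>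
    hi.continuousOn_mul (continuous_id.min continuous_const).continuousOn
  rw [e, intervalIntegral.integral_sub (hii r) ((hii 1).const_mul r),
    intervalIntegral.integral_const_mul, key r hr, key 1 ⟨zero_le_one, le_rfl⟩]

/-- A nonincreasing profile on `[0,1]` is known once its hat integrals and its integral are. -/
theorem profile_of_hat {T Z : ℝ → ℝ} (hTm : Measurable T)
    (hT : ∀ y, T y ∈ Icc (0 : ℝ) 1) {G : Set ℝ} (hG : ∀ᵐ y ∂(volume.restrict (Icc (0 : ℝ) 1)), y ∈ G)
    (hanti : ∀ y ∈ G, ∀ y' ∈ G, y ≤ y' → T y' ≤ T y)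
    (hZ : ContinuousOn Z (Icc 0 1)) (hZa : AntitoneOn Z (Icc 0 1))
    (h1 : ∫ y in Icc (0 : ℝ) 1, T y = ∫ t in (0 : ℝ)..1, Z t)
    (hr : ∀ r : ℚ, 0 ≤ r → r ≤ 1 → ∫ y in Icc (0 : ℝ) 1, hat r (T y) =
      (∫ t in (0 : ℝ)..(r : ℝ), Z t) - r * ∫ t in (0 : ℝ)..1, Z t) :
    ∀ᵐ y ∂(volume.restrict (Icc (0 : ℝ) 1)), ∀ t ∈ Ioo (0 : ℝ) 1,
      (y < Z t → t < T y) ∧ (Z t < y → T y ≤ t) := by
  set μ := volume.restrict (Icc (0 : ℝ) 1) with hμ
  have hZi : ∀ a b : ℝ, a ∈ Icc (0 : ℝ) 1 → b ∈ Icc (0 : ℝ) 1 → IntervalIntegrable Z volume a b :=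
    fun a b ha hb => (hZ.mono (uIcc_subset_Icc ha hb)).intervalIntegrable
  have hint : ∀ r : ℝ, 0 ≤ r → Integrable (fun y => min (T y) r) μ := fun r hr0 =>
    (integrable_const (1 : ℝ)).mono' (hTm.min measurable_const).aestronglyMeasurable
      (Eventually.of_forall fun y => by
        rw [Real.norm_eq_abs, abs_of_nonneg (le_min (hT y).1 hr0)]
        exact (min_le_left _ _).trans (hT y).2)
  have hTi : Integrable T μ := (integrable_const (1 : ℝ)).mono' hTm.aestronglyMeasurable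
      (Eventually.of_forall fun y => by rw [Real.norm_eq_abs, abs_of_nonneg (hT y).1]; exact (hT y).2)
  have htr : ∀ r : ℚ, (r : ℝ) ∈ Icc (0 : ℝ) 1 →
      ∫ y, min (T y) r ∂μ = ∫ t in (0 : ℝ)..(r : ℝ), Z t := by
    intro r hr'
    have h := hr r (by exact_mod_cast hr'.1) (by exact_mod_cast hr'.2)
    simp only [hat, clamp_of_mem (hT _)] at h
    rw [integral_sub (hint r hr'.1) (hTi.const_mul _), integral_const_mul, h1] at h
    linarith
  have meas : ∀ r : ℝ, MeasurableSet {y | r < T y} := fun r => measurableSet_lt measurable_const hTm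
  have slope : ∀ r r' : ℚ, (r : ℝ) ∈ Icc (0 : ℝ) 1 → (r' : ℝ) ∈ Icc (0 : ℝ) 1 → (r : ℝ) < r' →
      μ.real {y | (r' : ℝ) < T y} ≤ Z r ∧ Z r' ≤ μ.real {y | (r : ℝ) < T y} := by
    intro r r' h h' hlt
    have hd : ∫ y, (min (T y) r' - min (T y) r) ∂μ = ∫ t in (r : ℝ)..r', Z t := by
      rw [integral_sub (hint _ h'.1) (hint _ h.1), htr r h, htr r' h', eq_comm,
        eq_sub_iff_add_eq, add_comm, intervalIntegral.integral_add_adjacent_intervals
          (hZi 0 r ⟨le_rfl, zero_le_one⟩ h) (hZi r r' h h')]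
    have ub := intervalIntegral.integral_mono_on hlt.le (hZi _ _ h h') intervalIntegrable_const
      (g := fun _ => Z r) fun t ht => hZa h ⟨h.1.trans ht.1, ht.2.trans h'.2⟩ ht.1
    have lb := intervalIntegral.integral_mono_on hlt.le intervalIntegrable_const (hZi _ _ h h')
      (f := fun _ => Z r') fun t ht => hZa ⟨h.1.trans ht.1, ht.2.trans h'.2⟩ h' ht.2
    rw [intervalIntegral.integral_const, smul_eq_mul] at ub lb
    have a : ∫ y, {y | (r' : ℝ) < T y}.indicator (fun _ => (r' : ℝ) - r) y ∂μ ≤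
        ∫ y, (min (T y) r' - min (T y) r) ∂μ :=
      integral_mono ((integrable_const _).indicator (meas _))
        ((hint _ h'.1).sub (hint _ h.1)) fun y => by
        by_cases hy : (r' : ℝ) < T y
        · rw [indicator_of_mem (show y ∈ {y | (r' : ℝ) < T y} from hy), min_eq_right hy.le,
            min_eq_right (hlt.trans hy).le]
        · rw [indicator_of_notMem (show y ∉ {y | (r' : ℝ) < T y} from hy), sub_nonneg]
          exact min_le_min le_rfl hlt.le
    have b : ∫ y, (min (T y) r' - min (T y) r) ∂μ ≤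
        ∫ y, {y | (r : ℝ) < T y}.indicator (fun _ => (r' : ℝ) - r) y ∂μ :=
      integral_mono ((hint _ h'.1).sub (hint _ h.1)) ((integrable_const _).indicator (meas _)) fun y => by
        by_cases hy : (r : ℝ) < T y
        · rw [indicator_of_mem (show y ∈ {y | (r : ℝ) < T y} from hy), min_eq_right hy.le]
          linarith [min_le_right (T y) (r' : ℝ)]
        · rw [indicator_of_notMem (show y ∉ {y | (r : ℝ) < T y} from hy), not_lt] at *
          rw [min_eq_left hy, min_eq_left (hy.trans hlt.le), sub_self]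
    rw [integral_indicator_const _ (meas _), smul_eq_mul, hd] at a
    rw [integral_indicator_const _ (meas _), smul_eq_mul, hd] at b
    constructor <;> nlinarith
  have hle : ∀ t ∈ Ioo (0 : ℝ) 1, μ.real {y | t < T y} = Z t := by
    intro t ht
    have hc : ContinuousAt Z t := hZ.continuousAt (Icc_mem_nhds ht.1 ht.2)
    apply le_antisymm
    · refine le_of_forall_gt_imp_ge_of_dense fun c hc' => ?_
      obtain ⟨δ, hδ, hδ'⟩ := Metric.eventually_nhds_iff.1 (hc.eventually_lt_const hc')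
      obtain ⟨r', hr1, hr2⟩ := exists_rat_btwn (max_lt (sub_lt_self t hδ) ht.1)
      obtain ⟨r, hq1, hq2⟩ := exists_rat_btwn hr1
      obtain ⟨ha, hb⟩ := max_lt_iff.1 hq1
      refine le_trans ?_ ((slope r r' ⟨hb.le, by linarith [ht.2]⟩
        ⟨(hb.trans hq2).le, hr2.le.trans ht.2.le⟩ hq2).1.trans (hδ' ?_).le)
      · exact measureReal_mono fun y (hy : t < T y) => hr2.trans hy
      · rw [Real.dist_eq, abs_lt]; constructor <;> linarith
    · refine le_of_forall_lt_imp_le_of_dense fun c hc' => ?_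
      obtain ⟨δ, hδ, hδ'⟩ := Metric.eventually_nhds_iff.1 (hc.eventually_const_lt hc')
      obtain ⟨r, hr1, hr2⟩ := exists_rat_btwn (lt_min (lt_add_of_pos_right t hδ) ht.2)
      obtain ⟨r', hq1, hq2⟩ := exists_rat_btwn hr2
      obtain ⟨ha, hb⟩ := lt_min_iff.1 hq2
      refine ((hδ' ?_).le.trans (slope r r' ⟨by linarith [ht.1], (hq1.trans hb).le⟩
        ⟨by linarith [ht.1], hb.le⟩ hq1).2).trans ?_
      · rw [Real.dist_eq, abs_lt]; constructor <;> linarith
      · exact measureReal_mono fun y (hy : (r : ℝ) < T y) => hr1.trans hy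
  filter_upwards [hG, ae_restrict_mem measurableSet_Icc] with y hy hyI t ht
  have hre : ∀ S : Set ℝ, MeasurableSet S → μ.real S = volume.real (S ∩ Icc (0 : ℝ) 1) :=
    fun S hS => measureReal_restrict_apply hS
  have hIy : μ.real (Iic y) = y := by
    rw [hre _ measurableSet_Iic,
      show Iic y ∩ Icc (0 : ℝ) 1 = Icc 0 y from ext fun u =>
        ⟨fun h => ⟨h.2.1, h.1⟩, fun h => ⟨h.2, h.1, h.2.trans hyI.2⟩⟩,
      Real.volume_real_Icc_of_le hyI.1, sub_zero]
  constructor
  · intro hlt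
    by_contra hcon
    rw [not_lt] at hcon
    have hsub : μ.real {y' | t < T y'} ≤ μ.real (Iic y) := by
      refine ENNReal.toReal_mono (measure_ne_top _ _) (measure_mono_ae ?_)
      filter_upwards [hG] with y' hy' (h' : t < T y')
      show y' ≤ y
      by_contra hgt
      exact absurd (h'.trans_le (hanti y hy y' hy' (not_le.1 hgt).le)) (not_lt.2 hcon)
    rw [hle t ht, hIy] at hsub
    linarith
  · intro hlt
    by_contra hcon
    rw [not_le] at hcon
    have hsub : μ.real (Iic y) ≤ μ.real {y' | t < T y'} := by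
      refine ENNReal.toReal_mono (measure_ne_top _ _) (measure_mono_ae ?_)
      filter_upwards [hG] with y' hy' (h' : y' ≤ y)
      exact hcon.trans_le (hanti y' hy' y hy h')
    rw [hle t ht, hIy] at hsub
    linarith

theorem integral_ball_density {r : ℝ} (hr : r ∈ Icc (0 : ℝ) 1) :
    IntervalIntegrable (fun t => 1 / (2 * √(1 - t))) volume 0 1 ∧
      ∫ t in (0 : ℝ)..1, hat r t * (1 / (2 * √(1 - t))) =
        (∫ t in (0 : ℝ)..r, √(1 - t)) - r * ∫ t in (0 : ℝ)..1, √(1 - t) :=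
  integral_hat_density (by fun_prop) (by simp)
    (fun t ht => (((hasDerivAt_id' t).const_sub 1).sqrt (by linarith [ht.2])).congr_deriv (by
      rw [neg_div]))
    (fun t _ => by positivity) hr

theorem integral_disc_density {r : ℝ} (hr : r ∈ Icc (0 : ℝ) 1) :
    IntervalIntegrable (fun t => t / √(1 - t ^ 2)) volume 0 1 ∧
      ∫ t in (0 : ℝ)..1, hat r t * (t / √(1 - t ^ 2)) =
        (∫ t in (0 : ℝ)..r, √(1 - t ^ 2)) - r * ∫ t in (0 : ℝ)..1, √(1 - t ^ 2) :=
  integral_hat_density (by fun_prop) (by simp)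
    (fun t ht => (((hasDerivAt_pow 2 t).const_sub 1).sqrt (by nlinarith [ht.1, ht.2])).congr_deriv (by
      field_simp; ring))
    (fun t ht => div_nonneg ht.1.le (sqrt_nonneg _)) hr

end Vale.Agent.P232.Rigid.Core
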