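import Vale.Agent.P232.Rigid.Core.CaseDefs

/-!
# P232 rigidity core: the slab

If the extreme slices are full and empty in the limit, the slices have no length in the limit, so
almost every slice of the set is full or empty.
-/

open MeasureTheory Set Real Filter
open scoped Topology ENNReal

namespace Vale.Agent.P232.Rigid.Core

variable {V s : ℝ} {E : Set R3} {g : ℕ → R3 → ℝ}

/-- Constant weights: the area bounds the projection on the axis and the integrated slice lengths. -/
private theorem weight_bound (hV : V ∈ Ioc (0 : ℝ) (1 / 2)) (h : Seq V E g s)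
    (hslc : ∀ k, Slc V (g k) s) (h0 : Tendsto (fun k => sliceArea (g k) s 0) atTop (𝓝 1))
    (h1 : Tendsto (fun k => sliceArea (g k) s 1) atTop (𝓝 0)) (m : ℕ) :
    1 - 3 * (1 / ((m : ℝ) + 1)) ^ 2 ≤ cubeCandidate V ∧
      ∀ᶠ k in atTop, ∫⁻ z, sliceLen (g k) s z ∂μI ≤ ENNReal.ofReal (3 * (1 / ((m : ℝ) + 1))) := by
  set w : ℝ := 1 / ((m : ℝ) + 1)
  have hw : 0 < w := by positivity
  have hw1 : w ≤ 1 := (div_le_one (by positivity)).2 (by simp)
  have hw2 : w ^ 2 ≤ 1 := pow_le_one₀ hw.le hw1
  have hj : 0 ≤ cubeCandidate V := cubeCandidate_nonneg ⟨hV.1.le, by linarith [hV.2]⟩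
  have hj1 : cubeCandidate V ≤ 1 := by
    have := (show candidate V ≤ 2 from min_le_right _ _)
    unfold cubeCandidate; linarith
  set c := √(1 - w ^ 2)
  have hc : 1 - w ^ 2 ≤ c := le_sqrt_of_sq_le (by nlinarith)
  have hD : Tendsto (fun k => sliceArea (g k) s 0 - sliceArea (g k) s 1) atTop (𝓝 1) := by
    simpa using h0.sub h1
  have key : ∀ᶠ k in atTop, 1 - 3 * w ^ 2 ≤ cubeCandidate V ∧
      ∫⁻ z, sliceLen (g k) s z ∂μI ≤ ENNReal.ofReal (3 * w) := by
    filter_upwards [h.area (w ^ 2) (by positivity),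
      hD.eventually (eventually_ge_nhds (show 1 - w ^ 2 < 1 by nlinarith))] with k hA hD
    set D := sliceArea (g k) s 0 - sliceArea (g k) s 1
    have hs := (hslc k (fun _ => w) (Or.inl ⟨m, rfl⟩)).trans hA
    simp only [setLIntegral_const, Real.volume_Icc] at hs
    rw [lintegral_const_mul' _ _ ENNReal.ofReal_ne_top, ← ENNReal.ofReal_mul (sqrt_nonneg _)] at hs
    have hcD : 1 - 2 * w ^ 2 ≤ c * D := by
      nlinarith [mul_le_mul hc hD (sub_nonneg.2 hw2) (sqrt_nonneg _)]
    have hle : c * D ≤ cubeCandidate V + w ^ 2 :=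
      (ENNReal.ofReal_le_ofReal_iff (by positivity)).1 (le_add_self.trans hs)
    refine ⟨by linarith, ?_⟩
    have hs' := (ENNReal.le_sub_of_add_le_right ENNReal.ofReal_ne_top hs).trans_eq
      (ENNReal.ofReal_sub _ (mul_nonneg (sqrt_nonneg _) (by linarith))).symm
    refine (ENNReal.mul_le_mul_iff_right (ENNReal.ofReal_pos.2 hw).ne' ENNReal.ofReal_ne_top).1
      (hs'.trans ?_)
    rw [← ENNReal.ofReal_mul hw.le]
    exact ENNReal.ofReal_le_ofReal (by nlinarith)
  exact ⟨key.exists.choose_spec.1, key.mono fun _ hk => hk.2⟩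

/-- Case B: extreme slices full and empty force a slab. -/
theorem stmtSlabCore : StmtSlabCore := by
  intro V hV E g s h hslc hlow h0 h1
  have hb := weight_bound hV h hslc h0 h1
  have hw : Tendsto (fun m : ℕ => 1 / ((m : ℝ) + 1)) atTop (𝓝 0) :=
    tendsto_one_div_add_atTop_nhds_zero_nat
  refine ⟨?_, ?_⟩
  · have h1le : 1 ≤ cubeCandidate V :=
      le_of_tendsto' (by simpa using ((hw.pow 2).const_mul 3).const_sub 1) fun m => (hb m).1
    have := (show candidate V ≤ 2 from min_le_right _ _)
    unfold cubeCandidate at h1le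
    linarith
  have hsl := Agree.slices h.meas h.good h.agree
  obtain ⟨⟨G, hG, hanti⟩, hint⟩ := Agree.sliceA_spec h.meas h.good h.agree h.vol
  have hA := measurable_sliceA h.meas
  set A := sliceA E
  have h01 : ∀ᵐ z ∂μI, A z = 0 ∨ A z = 1 := by
    have hm : ∀ k, Measurable fun z => ENNReal.ofReal (sliceArea (g k) s z * (1 - sliceArea (g k) s z)) :=
      fun k => by
        have := (measurable_sliceArea (h.good k)).comp (measurable_prodMk_left (x := s))
        exact (this.mul (this.const_sub 1)).ennreal_ofReal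
    have hzero : ∫⁻ z, ENNReal.ofReal (A z * (1 - A z)) ∂μI = 0 := by
      have ht : Tendsto (fun m : ℕ => ENNReal.ofReal (3 * (1 / ((m : ℝ) + 1)))) atTop (𝓝 0) := by
        simpa using ENNReal.tendsto_ofReal (hw.const_mul 3)
      refine le_antisymm (ge_of_tendsto' ht fun m => ?_) bot_le
      calc ∫⁻ z, ENNReal.ofReal (A z * (1 - A z)) ∂μI
          = ∫⁻ z, liminf (fun k => ENNReal.ofReal
              (sliceArea (g k) s z * (1 - sliceArea (g k) s z))) atTop ∂μI := by
            refine lintegral_congr_ae (hsl.mono fun z hz => ?_)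
            exact (ENNReal.tendsto_ofReal (hz.2.1.mul (hz.2.1.const_sub 1))).liminf_eq.symm
        _ ≤ liminf (fun k => ∫⁻ z, ENNReal.ofReal
              (sliceArea (g k) s z * (1 - sliceArea (g k) s z)) ∂μI) atTop := lintegral_liminf_le hm
        _ ≤ _ := liminf_le_of_frequently_le'
            (((hb m).2.mono fun k hk => (lintegral_mono_ae (hlow k)).trans hk).frequently)
    rw [lintegral_eq_zero_iff (by fun_prop)] at hzero
    filter_upwards [hzero] with z hz
    obtain ⟨ha, hb⟩ : 0 ≤ A z ∧ A z ≤ 1 := sliceA_mem E z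
    have hz' : A z * (1 - A z) ≤ 0 := ENNReal.ofReal_eq_zero.1 hz
    rcases ha.eq_or_lt with e | e
    · exact Or.inl e.symm
    · exact Or.inr (le_antisymm hb (by nlinarith))
  have hgood : ∀ᵐ z ∂μI, z ∈ Icc (0 : ℝ) 1 ∧ z ∈ G ∧ (A z = 0 ∨ A z = 1) := by
    filter_upwards [ae_restrict_mem measurableSet_Icc, hG, h01] with z ha hb hc using ⟨ha, hb, hc⟩
  have hInd : ∀ z ∈ Icc (0 : ℝ) 1, ∫ w, (Iic z).indicator 1 w ∂μI = z := fun z hz => by
    have e : Iic z ∩ Icc 0 1 = Icc 0 z :=
      Set.ext fun w => ⟨fun hw => ⟨hw.2.1, hw.1⟩, fun hw => ⟨hw.2, hw.1, hw.2.trans hz.2⟩⟩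
    rw [integral_indicator_one measurableSet_Iic, measureReal_restrict_apply measurableSet_Iic, e,
      Real.volume_real_Icc_of_le hz.1, sub_zero]
  have hiA : Integrable A μI := (integrable_const (1 : ℝ)).mono' hA.aestronglyMeasurable
    (Eventually.of_forall fun z => by
      rw [Real.norm_eq_abs, abs_of_nonneg (sliceA_mem E z).1]; exact (sliceA_mem E z).2)
  have hiI : ∀ z, Integrable ((Iic z).indicator (1 : ℝ → ℝ)) μI := fun z =>
    (integrable_const (1 : ℝ)).indicator measurableSet_Iic
  have hval : ∀ᵐ z ∂μI, z ≠ V ∧ A z = if z < V then 1 else 0 := by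
    filter_upwards [hgood, Measure.ae_ne μI V] with z hz hne
    refine ⟨hne, ?_⟩
    rcases hz.2.2 with e | e
    · rw [if_neg (not_lt.2 ?_), e]
      rw [← hint, ← hInd z hz.1]
      refine integral_mono_ae hiA (hiI z) (hgood.mono fun w hw => ?_)
      by_cases hwz : w ≤ z
      · rw [indicator_of_mem (mem_Iic.2 hwz), Pi.one_apply]
        exact (sliceA_mem E w).2
      · rw [indicator_of_notMem (fun hh => hwz (mem_Iic.1 hh))]
        exact (hanti hz.2.1 hw.2.1 (not_le.1 hwz).le).trans e.le
    · rw [if_pos (lt_of_le_of_ne ?_ hne), e]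
      rw [← hint, ← hInd z hz.1]
      refine integral_mono_ae (hiI z) hiA (hgood.mono fun w hw => ?_)
      by_cases hwz : w ≤ z
      · rw [indicator_of_mem (mem_Iic.2 hwz), Pi.one_apply]
        exact e.ge.trans (hanti hw.2.1 hz.2.1 hwz)
      · rw [indicator_of_notMem (fun hh => hwz (mem_Iic.1 hh))]
        exact (sliceA_mem E w).1
  have hF : MeasurableSet {p : R3 | p 2 < V} :=
    measurableSet_lt (measurable_pi_apply 2) measurable_const
  have hae : ∀ᵐ p ∂(volume.restrict cube), p ∈ E ↔ p 2 < V := by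
    refine ae_of_slices ?_ ?_
    · have e : {p : R3 | p ∈ E ↔ p 2 < V} = E ∩ {p | p 2 < V} ∪ (E ∪ {p | p 2 < V})ᶜ := by
        ext p; simp only [mem_ofPred_eq, mem_union, mem_inter_iff, mem_compl_iff]; tauto
      rw [e]
      exact (h.meas.inter hF).union (h.meas.union hF).compl
    filter_upwards [hval] with z hzv
    have hz := hzv.2
    have hS := measurableSet_slice h.meas z
    have h2 : ∀ q : ℝ × ℝ, pt q.1 q.2 z 2 = z := fun q => rfl
    simp only [h2]
    split_ifs at hz with hzV
    · have : (μI.prod μI).real {q : ℝ × ℝ | pt q.1 q.2 z ∈ E}ᶜ = 0 := by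
        rw [measureReal_compl hS, ← univ_prod_univ, measureReal_prod_prod, μI_univ,
          show (μI.prod μI).real _ = 1 from hz]
        norm_num
      filter_upwards [measure_eq_zero_iff_ae_notMem.1 ((measureReal_eq_zero_iff).1 this)] with q hq
      exact iff_of_true (not_not.1 hq) hzV
    · filter_upwards [measure_eq_zero_iff_ae_notMem.1 ((measureReal_eq_zero_iff).1 hz)] with q hq
      exact iff_of_false hq hzV
  exact hae.mono fun p hp => propext hp

end Vale.Agent.P232.Rigid.Core
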