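import Vale.Agent.P232.Slice.Planar
import Vale.Agent.P232.Slice.Facts
import Vale.Agent.P232.Slice.Reduce

/-!
# P232 rigidity core: slices of a set agreed on by a sequence of levels

If for almost every point of the cube membership in `E` is eventually that in the superlevel sets,
the slice areas and the segment lengths of the latter converge to those of `E`.
-/

open MeasureTheory Set Real Filter
open scoped Topology ENNReal

namespace Vale.Agent.P232.Rigid.Core

/-- Lebesgue measure on the unit interval. -/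
noncomputable abbrev μI : Measure ℝ := volume.restrict (Icc 0 1)

instance : IsFiniteMeasure μI := isFiniteMeasure_restrict.2 (by simp)

theorem measurePreserving_pt :
    MeasurePreserving (fun a : ℝ × ℝ × ℝ => pt a.2.1 a.2.2 a.1) := by
  have h1 := (volume_preserving_piFinSuccAbove (fun _ : Fin 3 => ℝ) 2).symm
  have h2 := (volume_preserving_finTwoArrow ℝ).symm
  have hp : MeasurePreserving (Prod.map id (MeasurableEquiv.finTwoArrow (α := ℝ)).symm)
      (volume : Measure (ℝ × ℝ × ℝ)) (volume : Measure (ℝ × (Fin 2 → ℝ))) :=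
    (MeasurePreserving.id (volume : Measure ℝ)).prod h2
  have e : (fun a : ℝ × ℝ × ℝ => pt a.2.1 a.2.2 a.1) =
      (MeasurableEquiv.piFinSuccAbove (fun _ : Fin 3 => ℝ) 2).symm ∘
        Prod.map id (MeasurableEquiv.finTwoArrow (α := ℝ)).symm := by
    funext p
    ext i
    fin_cases i <;> simp [pt, MeasurableEquiv.piFinSuccAbove, MeasurableEquiv.finTwoArrow,
      MeasurableEquiv.piFinTwo, Fin.insertNthEquiv, piFinTwoEquiv, Fin.insertNth, Fin.succAboveCases]
  rw [e]
  exact h1.comp hp

theorem measurePreserving_pt_cube :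
    MeasurePreserving (fun a : ℝ × ℝ × ℝ => pt a.2.1 a.2.2 a.1) (μI.prod (μI.prod μI))
      (volume.restrict cube) := by
  have h := measurePreserving_pt.restrict_preimage (Slice.measurableSet_cube)
  have e : (fun a : ℝ × ℝ × ℝ => pt a.2.1 a.2.2 a.1) ⁻¹' cube =
      Icc (0 : ℝ) 1 ×ˢ (Icc (0 : ℝ) 1 ×ˢ Icc (0 : ℝ) 1) := by
    ext ⟨z, x, y⟩
    exact ⟨fun h => ⟨⟨h.1 2, h.2 2⟩, ⟨h.1 0, h.2 0⟩, h.1 1, h.2 1⟩,
      fun h => Slice.pt_mem_cube h.2.1 h.2.2 h.1⟩
  rwa [e, Measure.volume_eq_prod, Measure.volume_eq_prod, ← Measure.prod_restrict,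
    ← Measure.prod_restrict] at h

/-- Fubini for null sets of the cube. -/
theorem ae_slices {P : R3 → Prop} (h : ∀ᵐ p ∂(volume.restrict cube), P p) :
    ∀ᵐ z ∂μI, ∀ᵐ q ∂(μI.prod μI), P (pt q.1 q.2 z) :=
  Measure.ae_ae_of_ae_prod (measurePreserving_pt_cube.quasiMeasurePreserving.ae h)

/-- Back from the slices. -/
theorem ae_of_slices {P : R3 → Prop} (hP : MeasurableSet {p | P p})
    (h : ∀ᵐ z ∂μI, ∀ᵐ q ∂(μI.prod μI), P (pt q.1 q.2 z)) :
    ∀ᵐ p ∂(volume.restrict cube), P p := by
  rw [← measurePreserving_pt_cube.map_eq, ae_map_iff measurePreserving_pt_cube.aemeasurable hP]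
  exact (Measure.ae_prod_iff_ae_ae (measurePreserving_pt_cube.measurable hP)).2 h

theorem ae_swap_square {P : ℝ × ℝ → Prop} (h : ∀ᵐ q ∂(μI.prod μI), P q) :
    ∀ᵐ y ∂μI, ∀ᵐ x ∂μI, P (x, y) :=
  Measure.ae_ae_of_ae_prod (Measure.measurePreserving_swap.quasiMeasurePreserving.ae h)

theorem tendsto_measureReal {α : Type*} [MeasurableSpace α] {μ : Measure α} [IsFiniteMeasure μ]
    {A : Set α} {As : ℕ → Set α} (hA : MeasurableSet A) (hAs : ∀ k, MeasurableSet (As k))
    (h : ∀ᵐ x ∂μ, ∀ᶠ k in atTop, (x ∈ As k ↔ x ∈ A)) :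
    Tendsto (fun k => μ.real (As k)) atTop (𝓝 (μ.real A)) :=
  (ENNReal.tendsto_toReal (measure_ne_top _ _)).comp
    (tendsto_measure_of_ae_tendsto_indicator_of_isFiniteMeasure atTop hA hAs h)

/-- The area of the slice of `E` at height `z`. -/
noncomputable def sliceA (E : Set R3) (z : ℝ) : ℝ :=
  (μI.prod μI).real {q | pt q.1 q.2 z ∈ E}

/-- The segment of `E` in the first direction at `(·, y, z)`. -/
noncomputable def widX (E : Set R3) (y z : ℝ) : ℝ := μI.real {x | pt x y z ∈ E}

variable {E : Set R3} (hE : MeasurableSet E)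

include hE in
theorem measurableSet_slice (z : ℝ) : MeasurableSet {q : ℝ × ℝ | pt q.1 q.2 z ∈ E} :=
  (Slice.measurable_pt measurable_fst measurable_snd measurable_const) hE

include hE in
theorem measurable_sliceA : Measurable (sliceA E) := by
  have h : MeasurableSet {a : ℝ × ℝ × ℝ | pt a.2.1 a.2.2 a.1 ∈ E} :=
    (Slice.measurable_pt measurable_snd.fst measurable_snd.snd measurable_fst) hE
  exact (measurable_measure_prodMk_left (ν := μI.prod μI) h).ennreal_toReal

include hE in
theorem measurable_widX (z : ℝ) : Measurable fun y => widX E y z :=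
  (measurable_measure_prodMk_left (ν := μI) (s := {a : ℝ × ℝ | pt a.2 a.1 z ∈ E})
    ((Slice.measurable_pt measurable_snd measurable_fst measurable_const) hE)).ennreal_toReal

theorem μI_univ : μI.real univ = 1 := by simp [μI]

theorem sliceA_mem (E : Set R3) (z : ℝ) : sliceA E z ∈ Icc (0 : ℝ) 1 := by
  refine ⟨measureReal_nonneg, (measureReal_mono (subset_univ _)).trans ?_⟩
  rw [← univ_prod_univ, measureReal_prod_prod, μI_univ, mul_one]

theorem widX_mem (E : Set R3) (y z : ℝ) : widX E y z ∈ Icc (0 : ℝ) 1 :=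
  ⟨measureReal_nonneg, (measureReal_mono (subset_univ _)).trans μI_univ.le⟩

theorem sliceArea_eq_measureReal {g : R3 → ℝ} (hg : Good g) (s z : ℝ) :
    sliceArea g s z = (μI.prod μI).real {q | s < g (pt q.1 q.2 z)} := by
  rw [sliceArea_eq_planeArea hg, Slice.sliceArea, Measure.prod_restrict,
    ← Measure.volume_eq_prod, measureReal_restrict_apply
      (measurableSet_lt measurable_const (hg.meas_g measurable_fst measurable_snd measurable_const))]
  exact congrArg volume.real (inter_comm _ _)

theorem lenX_eq_measureReal {g : R3 → ℝ} (hg : Good g) (s y z : ℝ) :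
    lenX g s y z = μI.real {x | s < g (pt x y z)} := by
  have hm : MeasurableSet {x : ℝ | s < g (pt x y z)} :=
    measurableSet_lt measurable_const (hg.meas_g measurable_id measurable_const measurable_const)
  rw [measureReal_restrict_apply hm]
  exact congrArg volume.real (inter_comm _ _)

/-- Membership in `E` is eventually that in the superlevel sets. -/
def Agree (E : Set R3) (g : ℕ → R3 → ℝ) (s : ℝ) : Prop :=
  ∀ᵐ p ∂(volume.restrict cube), ∀ᶠ k in atTop, (s < g k p ↔ p ∈ E)

variable {g : ℕ → R3 → ℝ} {s : ℝ} (hg : ∀ k, Good (g k)) (h : Agree E g s)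

include hE hg h in
/-- Convergence in almost every slice. -/
theorem Agree.slices : ∀ᵐ z ∂μI,
    (∀ᵐ q ∂(μI.prod μI), ∀ᶠ k in atTop, (s < g k (pt q.1 q.2 z) ↔ pt q.1 q.2 z ∈ E)) ∧
    Tendsto (fun k => sliceArea (g k) s z) atTop (𝓝 (sliceA E z)) ∧
    ∀ᵐ y ∂μI, Tendsto (fun k => lenX (g k) s y z) atTop (𝓝 (widX E y z)) := by
  filter_upwards [ae_slices h] with z hz
  refine ⟨hz, ?_, ?_⟩
  · simp only [fun k => sliceArea_eq_measureReal (hg k) s z]
    exact tendsto_measureReal (measurableSet_slice hE z) (fun k => measurableSet_lt measurable_const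
      ((hg k).meas_g measurable_fst measurable_snd measurable_const)) hz
  · filter_upwards [ae_swap_square hz] with y hy
    simp only [fun k => lenX_eq_measureReal (hg k) s y z]
    exact tendsto_measureReal ((Slice.measurable_pt measurable_id measurable_const measurable_const) hE)
      (fun k => measurableSet_lt measurable_const
        ((hg k).meas_g measurable_id measurable_const measurable_const)) hy

include hE hg h in
/-- The slice areas of `E` are nonincreasing off a null set and integrate to the limit volume. -/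
theorem Agree.sliceA_spec {V : ℝ} (hv : Tendsto (fun k => levelVol (g k) s) atTop (𝓝 V)) :
    (∃ G : Set ℝ, (∀ᵐ z ∂μI, z ∈ G) ∧ AntitoneOn (sliceA E) G) ∧
      ∫ z in Icc (0 : ℝ) 1, sliceA E z = V := by
  have hlim := (Agree.slices hE hg h).mono fun z hz => hz.2.1
  refine ⟨⟨{z | z ∈ Icc (0 : ℝ) 1 ∧ Tendsto (fun k => sliceArea (g k) s z) atTop (𝓝 (sliceA E z))},
    ?_, fun a ha b hb hab => le_of_tendsto_of_tendsto' hb.2 ha.2 fun k =>
      antitoneOn_sliceArea (hg k) s ha.1 hb.1 hab⟩, ?_⟩
  · filter_upwards [hlim, ae_restrict_mem measurableSet_Icc] with z h1 h2 using ⟨h2, h1⟩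
  · refine tendsto_nhds_unique ?_ hv
    simp only [fun k => levelVol_eq_integral (hg k) s]
    refine tendsto_integral_of_dominated_convergence (fun _ => 1)
      (fun k => ((measurable_sliceArea (hg k)).comp measurable_prodMk_left).aestronglyMeasurable)
      (integrable_const _) (fun k => Eventually.of_forall fun z => ?_) hlim
    rw [Real.norm_eq_abs, abs_of_nonneg (sliceArea_mem (g k) s z).1]
    exact (sliceArea_mem (g k) s z).2

/-- If the slice areas vanish in the limit, so do the slices off the axis. -/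
theorem eventually_not_mem_of_tendsto_zero (hg : ∀ k, Good (g k)) {z : ℝ} (hz : z ∈ Icc (0 : ℝ) 1)
    (hA : Tendsto (fun k => sliceArea (g k) s z) atTop (𝓝 0)) {x y : ℝ} (hx : x ∈ Ioo (0 : ℝ) 1)
    (hy : y ∈ Ioo (0 : ℝ) 1) : ∀ᶠ k in atTop, ¬s < g k (pt x y z) := by
  filter_upwards [hA.eventually (eventually_lt_nhds (mul_pos hx.1 hy.1))] with k hk hlt
  have hxI : x ∈ Icc (0 : ℝ) 1 := Ioo_subset_Icc_self hx
  have h1 : y ≤ lenY (g k) s x z :=
    Planar.le_top_of_le (((hg k).planarSq hz).antiY hxI) (Ioo_subset_Icc_self hy) hlt.le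
  have hint := integrableOn_lenY (hg k) s z
  have h2 : x * lenY (g k) s x z ≤ sliceArea (g k) s z := by
    refine le_trans (le_of_eq ?_) ((setIntegral_mono_on (integrableOn_const (C := lenY (g k) s x z)
      (by simp)) (hint.mono_set fun t ht => ?_) measurableSet_Icc
      fun t ht => ?_).trans (setIntegral_mono_set hint
        (Eventually.of_forall fun t => (lenY_mem (g k) s t z).1)
        (LE.le.eventuallyLE (Icc_subset_Icc_right hxI.2))))
    · rw [setIntegral_const, Real.volume_real_Icc_of_le hxI.1, sub_zero, smul_eq_mul]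
    · exact ⟨ht.1, ht.2.trans hxI.2⟩
    · exact ((hg k).planarSq hz).antitone_hY s ⟨ht.1, ht.2.trans hxI.2⟩ hxI ht.2
  nlinarith [mul_le_mul_of_nonneg_left h1 hxI.1]

end Vale.Agent.P232.Rigid.Core
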