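import Vale.Agent.P232.Smooth
import Vale.Agent.P232.Slice.Coarea
import Vale.Agent.P232.Slice.Reduce
import Vale.Agent.P232.Rigid.Defs
import Vale.Agent.P232.Rigid.Core.Slices

/-!
# P232 rigidity core: choice of a level

A minimiser gives smooth strictly decreasing sorted functions and one level whose superlevel sets
agree eventually with the set almost everywhere and whose areas do not exceed the candidate in the
limit. Any property holding for almost every level of every such function may be asked of it.
-/

open MeasureTheory Set Real Filter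
open Vale.Agent.P232.Smooth (volume_cube_ne_top volume_real_cube measurableSet_cube)
open scoped Topology ENNReal NNReal

namespace Vale.Agent.P232.Rigid.Core

/-- Levels converging to `E` with areas at most the candidate. -/
structure Seq (V : ℝ) (E : Set R3) (g : ℕ → R3 → ℝ) (s : ℝ) : Prop where
  meas : MeasurableSet E
  good : ∀ k, Good (g k)
  agree : Agree E g s
  vol : Tendsto (fun k => levelVol (g k) s) atTop (𝓝 V)
  half : ∀ k, levelVol (g k) s ≤ 1 / 2
  area : ∀ ε > 0, ∀ᶠ k in atTop, levelArea (g k) s ≤ ENNReal.ofReal (cubeCandidate V + ε)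

variable {V s : ℝ} {E : Set R3} {g : ℕ → R3 → ℝ}

theorem Agree.comp (h : Agree E g s) {φ : ℕ → ℕ} (hφ : StrictMono φ) :
    Agree E (fun k => g (φ k)) s :=
  h.mono fun _ hp => hφ.tendsto_atTop.eventually hp

theorem Seq.comp (h : Seq V E g s) {φ : ℕ → ℕ} (hφ : StrictMono φ) :
    Seq V E (fun k => g (φ k)) s :=
  ⟨h.meas, fun _ => h.good _, h.agree.comp hφ, h.vol.comp hφ.tendsto_atTop, fun _ => h.half _,
    fun ε hε => hφ.tendsto_atTop.eventually (h.area ε hε)⟩

/-- Smooth approximants of a sorted minimiser. -/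
theorem exists_smooth (hE : CubeMin CubeSorted V E) :
    ∃ h : ℕ → R3 → ℝ, (∀ k, Good (h k)) ∧ (∀ k, CubeSorted (h k)) ∧
      (∀ k, ∀ x ∈ cube, h k x ∈ Icc (0 : ℝ) 1) ∧
      Tendsto (fun k => ∫ x in cube, |h k x - ind E x|) atTop (𝓝 0) ∧
      ∀ ε > 0, ∀ᶠ k in atTop, ∫ x in cube, gradNorm (h k) x ≤ cubeCandidate V + ε := by
  have : IsFiniteMeasure (volume.restrict cube : Measure R3) :=
    isFiniteMeasure_restrict.2 volume_cube_ne_top
  obtain ⟨g, hL, h01, hag, hl1, hen⟩ := hE.approx
  choose L hL using hL
  let r : ℕ → ℝ := fun k => 1 / (((k : ℝ) + 1) * (300 * L k + 10))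
  have hr : ∀ k, 0 < r k := fun k => by positivity
  have hr1 : ∀ k, r k ≤ 1 := fun k => by
    refine (div_le_one (by positivity)).2 (one_le_mul_of_one_le_of_one_le (by simp) ?_)
    linarith [(L k).coe_nonneg]
  have hrk : ∀ k, (300 * L k + 10) * r k = 1 / ((k : ℝ) + 1) := fun k => by
    have : (300 * (L k : ℝ) + 10) ≠ 0 := by positivity
    simp only [r]; field_simp
  have hC : ∀ k, ContDiff ℝ 1 (Smooth.approx (g k) (r k)) := fun k =>
    Smooth.contDiff_approx (hr k) (hL k)
  have hgi : ∀ F : R3 → ℝ, ContDiff ℝ 1 F → IntegrableOn (gradNorm F) cube := fun F hF =>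
    (Slice.continuous_gradNorm hF).continuousOn.integrableOn_compact isCompact_Icc
  refine ⟨fun k => Smooth.approx (g k) (r k),
    fun k => ⟨hC k, fun x _ i => Smooth.pd_approx_neg (hr k) (hL k) (h01 k) (hag k).1 i x⟩,
    fun k => Smooth.sorted_approx (hr k) (hL k) (h01 k) (hag k).2,
    fun k x hx => Smooth.approx_mem (hr k) (hL k) (h01 k) hx, ?_, fun ε hε => ?_⟩
  · refine squeeze_zero
      (g := fun k => (∫ x in cube, |g k x - ind E x|) + 1 / ((k : ℝ) + 1))
      (fun k => integral_nonneg fun _ => abs_nonneg _) (fun k => ?_)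
      (by simpa using hl1.add tendsto_one_div_add_atTop_nhds_zero_nat)
    have hi : ∀ F : R3 → ℝ, Measurable F → (∀ x ∈ cube, F x ∈ Icc (0 : ℝ) 1) →
        Integrable (fun x => |F x - ind E x|) (volume.restrict cube) := fun F hF h =>
      (integrable_const (2 : ℝ)).mono'
        ((hF.sub (measurable_const.indicator hE.meas)).abs.aestronglyMeasurable) (by
          filter_upwards [ae_restrict_mem measurableSet_cube] with x hx
          rw [Real.norm_eq_abs, abs_abs, abs_le]
          have := h x hx
          have h2 : ind E x ∈ Icc (0 : ℝ) 1 := by by_cases h : x ∈ E <;> simp [ind, h]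
          constructor <;> linarith [this.1, this.2, h2.1, h2.2])
    have hg := hi _ (hL k).continuous.measurable fun x _ => h01 k x
    calc ∫ x in cube, |Smooth.approx (g k) (r k) x - ind E x|
        ≤ ∫ x in cube, (|g k x - ind E x| + 1 / ((k : ℝ) + 1)) := by
          refine setIntegral_mono_on (hi _ (hC k).continuous.measurable fun x hx =>
            Smooth.approx_mem (hr k) (hL k) (h01 k) hx) (hg.add (integrable_const _))
            measurableSet_cube fun x hx => ?_
          have h1 := Smooth.abs_approx_sub_le (hr k) (hL k) (h01 k) hx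
          have h2 := abs_sub_le (Smooth.approx (g k) (r k) x) (g k x) (ind E x)
          nlinarith [hrk k, (L k).coe_nonneg, hr k]
      _ = (∫ x in cube, |g k x - ind E x|) + 1 / ((k : ℝ) + 1) := by
          rw [integral_add hg (integrable_const _), setIntegral_const, volume_real_cube, one_smul]
  · filter_upwards [hen (ε / 2) (half_pos hε),
      tendsto_one_div_add_atTop_nhds_zero_nat.eventually (eventually_le_nhds (half_pos hε))]
      with k hk hk'
    have hm := hgi _ (Smooth.contDiff_moll (hr k) (Smooth.lipschitz_ext (hL k)).continuous)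
    have h1 := setIntegral_mono (hgi _ (hC k)) (hm.add (integrable_const (2 * r k)))
      fun x => Smooth.gradNorm_approx_le (hr k) (hL k) x
    simp only [Pi.add_apply] at h1
    rw [integral_add hm (integrable_const _), setIntegral_const, volume_real_cube, one_smul] at h1
    have h2 := Smooth.integral_gradNorm_moll_le (hr k) (Smooth.lipschitz_ext (hL k))
      (Smooth.ext_mem (h01 k))
    rw [Smooth.integral_gradNorm_ext] at h2
    have h3 : (1 + 4 * r k) ^ 3 - 1 ≤ 124 * r k := by
      nlinarith [hr k, hr1 k, mul_le_mul_of_nonneg_left (hr1 k) (hr k).le,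
        mul_le_mul_of_nonneg_left (hr1 k) (sq_nonneg (r k))]
    nlinarith [mul_le_mul_of_nonneg_left h3 (mul_nonneg zero_le_two (L k).coe_nonneg), hrk k,
      hr k, (L k).coe_nonneg]

/-- The reflected complement. -/
def flipSet (E : Set R3) : Set R3 := {p | 1 - p ∉ E}

/-- The choice of a level, with any property of almost every level. -/
theorem exists_seq (hE : CubeMin CubeSorted V E) (hV : V ∈ Ioc (0 : ℝ) (1 / 2))
    (P : (R3 → ℝ) → ℝ → Prop) (hP : ∀ g, Good g → CubeSorted g → ∀ᵐ s : ℝ, P g s) :
    ∃ E' g s, (E' = E ∨ V = 1 / 2 ∧ E' = flipSet E) ∧ Seq V E' g s ∧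
      ∀ k, CubeSorted (g k) ∧ P (g k) s := by
  have : IsFiniteMeasure (volume.restrict cube : Measure R3) :=
    isFiniteMeasure_restrict.2 volume_cube_ne_top
  obtain ⟨h, hg, hsort, h01, hl1, hen⟩ := exists_smooth hE
  set j := cubeCandidate V
  have hj : 0 ≤ j := cubeCandidate_nonneg ⟨hV.1.le, by linarith [hV.2]⟩
  set μ : Measure ℝ := volume.restrict (Ioo 0 1) with hμ
  have : IsProbabilityMeasure μ := ⟨by simp [hμ]⟩
  have hlim : ∫⁻ s, liminf (fun k => levelArea (h k) s) atTop ∂μ ≤ ENNReal.ofReal j := by
    refine (lintegral_liminf_le fun k => measurable_levelArea (hg k).smooth).trans ?_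
    refine ENNReal.le_of_forall_pos_le_add fun ε hε _ => ?_
    rw [← ENNReal.ofReal_coe_nnreal, ← ENNReal.ofReal_add hj ε.coe_nonneg]
    refine liminf_le_of_frequently_le' (Eventually.frequently ?_)
    filter_upwards [hen ε (by exact_mod_cast hε)] with k hk
    rw [hμ, ← lintegral_indicator measurableSet_Ioo]
    have e : ∀ s, (Ioo (0 : ℝ) 1).indicator (levelArea (h k)) s =
        (Ioo (0 : ℝ) 1).indicator (fun _ => (1 : ℝ≥0∞)) s * levelArea (h k) s := fun s => by
      by_cases hs : s ∈ Ioo (0 : ℝ) 1 <;> simp [hs]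
    rw [lintegral_congr e, ← stmtCoarea (h k) (hg k) _ (measurable_const.indicator measurableSet_Ioo)]
    refine le_trans (setLIntegral_mono' measurableSet_cube fun x _ =>
      mul_le_of_le_one_left bot_le ?_) ?_
    · exact indicator_le_self' (fun _ _ => bot_le) _
    · have hi : IntegrableOn (gradNorm (h k)) cube :=
        (Slice.continuous_gradNorm (hg k).smooth).continuousOn.integrableOn_compact isCompact_Icc
      rw [← ofReal_integral_eq_lintegral_ofReal hi (Eventually.of_forall fun x => Real.sqrt_nonneg _)]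
      exact ENNReal.ofReal_le_ofReal hk
  have hflip : ∀ k, ∀ᵐ s : ℝ, P (flipFun (h k)) (1 - s) := fun k =>
    (volume.measurePreserving_sub_left (1 : ℝ)).quasiMeasurePreserving.ae
      (hP _ (hg k).flipFun (hsort k).flipFun)
  have hnull : ∀ k, ∀ᵐ s : ℝ, (volume.restrict cube) {x | h k x = s} = 0 := fun k => by
    filter_upwards [(Measure.countable_meas_level_set_pos (μ := volume.restrict cube)
      (hg k).smooth.continuous.measurable).ae_notMem (volume : Measure ℝ)] with s hs
    exact le_antisymm (not_lt.1 hs) bot_le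
  have hae : ∀ᵐ s ∂μ, s ∈ Ioo (0 : ℝ) 1 ∧ ∀ k, P (h k) s ∧ P (flipFun (h k)) (1 - s) ∧
      levelArea (flipFun (h k)) (1 - s) = levelArea (h k) s ∧
      levelVol (flipFun (h k)) (1 - s) = 1 - levelVol (h k) s ∧
      (volume.restrict cube) {x | h k x = s} = 0 := by
    filter_upwards [ae_restrict_mem measurableSet_Ioo, ae_restrict_of_ae (ae_all_iff.2 fun k =>
      (hP _ (hg k) (hsort k)).and ((hflip k).and ((levelArea_flipFun stmtCoarea (hg k)).and
        ((levelVol_flipFun (hg k).smooth.continuous).and (hnull k)))))] with s hs hk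
    exact ⟨hs, hk⟩
  obtain ⟨s, hsN, hs⟩ := exists_notMem_null_le_lintegral (μ := μ)
    (f := fun s => liminf (fun k => levelArea (h k) s) atTop)
    (Measurable.liminf fun k => measurable_levelArea (hg k).smooth).aemeasurable (ae_iff.1 hae)
  obtain ⟨hs01, hfacts⟩ := not_not.1 hsN
  set bad : ℕ → Set R3 := fun k => {p | ¬(s < h k p ↔ p ∈ E)}
  have hbad : Tendsto (fun k => (volume.restrict cube).real (bad k)) atTop (𝓝 0) := by
    have hm0 : 0 < min s (1 - s) := lt_min hs01.1 (sub_pos.2 hs01.2)
    refine squeeze_zero (fun _ => measureReal_nonneg) (fun k => ?_)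
      (by simpa using hl1.div_const (min s (1 - s)))
    rw [le_div_iff₀ hm0, mul_comm]
    have hint : Integrable (fun x => |h k x - ind E x|) (volume.restrict cube) :=
      (integrable_const (2 : ℝ)).mono' (((hg k).smooth.continuous.measurable.sub
        (measurable_const.indicator hE.meas)).abs.aestronglyMeasurable) (by
          filter_upwards [ae_restrict_mem measurableSet_cube] with x hx
          rw [Real.norm_eq_abs, abs_abs, abs_le]
          have := h01 k x hx
          have h2 : ind E x ∈ Icc (0 : ℝ) 1 := by by_cases h : x ∈ E <;> simp [ind, h]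
          constructor <;> linarith [this.1, this.2, h2.1, h2.2])
    refine le_trans ?_ (mul_meas_ge_le_integral_of_nonneg (Eventually.of_forall fun _ => abs_nonneg _)
      hint (min s (1 - s)))
    refine mul_le_mul_of_nonneg_left (measureReal_mono fun x (hx : ¬(s < h k x ↔ x ∈ E)) => ?_) hm0.le
    show min s (1 - s) ≤ |h k x - ind E x|
    by_cases hxE : x ∈ E
    · have : h k x ≤ s := not_lt.1 fun hlt => hx (iff_of_true hlt hxE)
      rw [ind, indicator_of_mem hxE, abs_sub_comm, abs_of_nonneg (by linarith [hs01.2] : (0 : ℝ) ≤ 1 - h k x)]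
      linarith [min_le_right s (1 - s)]
    · have : s < h k x := not_le.1 fun hle => hx (iff_of_false (not_lt.2 hle) hxE)
      rw [ind, indicator_of_notMem hxE, sub_zero, abs_of_nonneg (hs01.1.le.trans this.le)]
      linarith [min_le_left s (1 - s)]
  obtain ⟨φ, hφ, hφP⟩ := extraction_forall_of_frequently (P := fun n k =>
      levelArea (h k) s ≤ ENNReal.ofReal (j + 1 / ((n : ℝ) + 1)) ∧
        (volume.restrict cube).real (bad k) ≤ (1 / 2) ^ n) fun n => by
    refine Frequently.and_eventually ?_ (hbad.eventually (eventually_le_nhds (by positivity)))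
    have hlt : liminf (fun k => levelArea (h k) s) atTop < ENNReal.ofReal (j + 1 / ((n : ℝ) + 1)) :=
      (hs.trans hlim).trans_lt ((ENNReal.ofReal_lt_ofReal_iff (by positivity)).2
        (lt_add_of_pos_right j (by positivity)))
    exact (frequently_lt_of_liminf_lt (by isBoundedDefault) hlt).mono fun k hk => hk.le
  have hagree : Agree E (fun n => h (φ n)) s := by
    have hsum : ∑' n, (volume.restrict cube) (bad (φ n)) ≠ ⊤ := by
      refine ne_top_of_le_ne_top (b := ENNReal.ofReal (∑' n : ℕ, (1 / 2 : ℝ) ^ n)) ENNReal.ofReal_ne_top ?_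
      rw [ENNReal.ofReal_tsum_of_nonneg (fun n => by positivity) summable_geometric_two]
      refine ENNReal.tsum_le_tsum fun n => ?_
      rw [← ofReal_measureReal]
      exact ENNReal.ofReal_le_ofReal (hφP n).2
    filter_upwards [ae_eventually_notMem hsum] with p hp
    exact hp.mono fun n hn => not_not.1 hn
  have hvol : Tendsto (fun n => levelVol (h (φ n)) s) atTop (𝓝 V) := by
    simp only [Smooth.levelVol_eq]
    rw [← hE.vol, ← measureReal_restrict_apply hE.meas]
    exact tendsto_measureReal hE.meas
      (fun n => measurableSet_lt measurable_const (hg (φ n)).smooth.continuous.measurable) hagree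
  have harea : ∀ ε > 0, ∀ᶠ n in atTop, levelArea (h (φ n)) s ≤ ENNReal.ofReal (j + ε) := fun ε hε => by
    filter_upwards [tendsto_one_div_add_atTop_nhds_zero_nat.eventually (eventually_le_nhds hε)]
      with n hn
    exact (hφP n).1.trans (ENNReal.ofReal_le_ofReal (by linarith))
  by_cases hhalf : ∀ᶠ n in atTop, levelVol (h (φ n)) s ≤ 1 / 2
  · obtain ⟨N, hN⟩ := eventually_atTop.1 hhalf
    have hψ : StrictMono fun n => n + N := fun a b hab => Nat.add_lt_add_right hab N
    exact ⟨E, fun n => h (φ (n + N)), s, Or.inl rfl, ⟨hE.meas, fun n => hg _, hagree.comp hψ,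
      hvol.comp hψ.tendsto_atTop, fun n => hN _ (Nat.le_add_left N n),
      fun ε hε => hψ.tendsto_atTop.eventually (harea ε hε)⟩, fun n => ⟨hsort _, (hfacts _).1⟩⟩
  obtain ⟨ψ, hψ, hψP⟩ := extraction_of_frequently_atTop (not_eventually.1 hhalf)
  have hv' := hvol.comp hψ.tendsto_atTop
  have hVhalf : V = 1 / 2 := le_antisymm hV.2 (ge_of_tendsto hv'
    (Eventually.of_forall fun n => (not_le.1 (hψP n)).le))
  have hmE : MeasurableSet (flipSet E) := ((measurable_const.sub measurable_id) hE.meas).compl
  refine ⟨flipSet E, fun n => flipFun (h (φ (ψ n))), 1 - s, Or.inr ⟨hVhalf, rfl⟩,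
    ⟨hmE, fun n => (hg _).flipFun, ?_, ?_, fun n => ?_, fun ε hε => ?_⟩,
    fun n => ⟨(hsort _).flipFun, (hfacts _).2.1⟩⟩
  · have hne : ∀ᵐ p ∂(volume.restrict cube), ∀ k, h k p ≠ s :=
      ae_all_iff.2 fun k => measure_eq_zero_iff_ae_notMem.1 (hfacts k).2.2.2.2
    have hT := (measurePreserving_restrict_cube measurePreserving_one_sub
      fun _ => one_sub_mem_cube).quasiMeasurePreserving.ae (hne.and (hagree.comp hψ))
    filter_upwards [hT] with p hp
    filter_upwards [hp.2] with n hn
    show 1 - s < 1 - h (φ (ψ n)) (1 - p) ↔ 1 - p ∉ E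
    rw [← not_iff_not.2 hn, not_lt, sub_lt_sub_iff_left]
    exact ⟨le_of_lt, fun hle => lt_of_le_of_ne hle (hp.1 _)⟩
  · simp only [(hfacts _).2.2.2.1]
    have := hv'.const_sub 1
    rw [show (1 : ℝ) - V = V by linarith] at this
    exact this
  · rw [(hfacts _).2.2.2.1]
    linarith [not_le.1 (hψP n)]
  · simp only [(hfacts _).2.2.1]
    exact hψ.tendsto_atTop.eventually (harea ε hε)

end Vale.Agent.P232.Rigid.Core
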