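import Vale.Agent.P232.Rigid.Core.Facts
import Vale.Agent.P232.Rigid.Core.Select

/-!
# P232 rigidity core: the parts of the two cases
-/

open MeasureTheory Set Real Filter
open scoped Topology ENNReal

namespace Vale.Agent.P232.Rigid.Core

/-- A sequence of levels, rotated so that all contacts of the slices are at most the cut. -/
structure SeqC (V : ℝ) (E : Set R3) (g : ℕ → R3 → ℝ) (s : ℝ) : Prop extends Seq V E g s where
  slc : ∀ k, Slc V (g k) s
  lenC : ∀ k, LenC (g k) s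
  cal : ∀ k, Cal (g k) s
  contacts : ∀ k, lenY (g k) s 1 0 ≤ cut ∧ lenX (g k) s 1 0 ≤ cut

/-- The slices at height `z` have areas tending to `A` and lengths at most a quarter circle's. -/
structure Tight (g : ℕ → R3 → ℝ) (s z A : ℝ) : Prop where
  area : Tendsto (fun k => sliceArea (g k) s z) atTop (𝓝 A)
  len : 0 < A → ∀ ε > 0, ∀ᶠ k in atTop, sliceLen (g k) s z ≤ ENNReal.ofReal (√(π * A) + ε)

/-- Case B: extreme slices full and empty force a slab. -/
def StmtSlabCore : Prop :=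
  ∀ V ∈ Ioc (0 : ℝ) (1 / 2), ∀ E g s, Seq V E g s →
    (∀ k, Slc V (g k) s) → (∀ k, LenLow (g k) s) →
    Tendsto (fun k => sliceArea (g k) s 0) atTop (𝓝 1) →
    Tendsto (fun k => sliceArea (g k) s 1) atTop (𝓝 0) →
    candidate V = 2 ∧ E =ᵐ[volume.restrict cube] {x | x 2 < V}

/-- Case C, the profile of a ball. -/
def StmtBallProfile : Prop :=
  ∀ V ∈ Ioc (0 : ℝ) (1 / 2), ∀ E g s, SeqC V E g s →
    Tendsto (fun k => sliceArea (g k) s 0) atTop (𝓝 (ballTop V)) →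
    Tendsto (fun k => sliceArea (g k) s 1) atTop (𝓝 0) →
    candidate V = π * ballRad V ^ 2 ∧ ballRad V ≤ 2 / 3 ∧
      ∃ φ : ℕ → ℕ, StrictMono φ ∧
        ∀ᵐ z ∂μI, Tight (fun k => g (φ k)) s z (π / 4 * max (ballRad V ^ 2 - z ^ 2) 0)

/-- Case C, the profile of a tube. -/
def StmtTubeProfile : Prop :=
  ∀ V ∈ Ioc (0 : ℝ) (1 / 2), ∀ E g s, SeqC V E g s →
    Tendsto (fun k => sliceArea (g k) s 0) atTop (𝓝 V) →
    Tendsto (fun k => sliceArea (g k) s 1) atTop (𝓝 V) →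
    candidate V = 2 * √(π * V) ∧ π * V ≤ 1 ∧
      ∃ φ : ℕ → ℕ, StrictMono φ ∧ ∀ᵐ z ∂μI, Tight (fun k => g (φ k)) s z V

/-- Case C, tight slices are quarter discs. -/
def StmtDiscSlices : Prop :=
  ∀ V E g s, SeqC V E g s → ∀ A : ℝ → ℝ, Measurable A → (∀ z, A z ∈ Icc (0 : ℝ) (7 / 20)) →
    (∀ᵐ z ∂μI, Tight g s z (A z)) →
    E =ᵐ[volume.restrict cube] {p | p 0 ^ 2 + p 1 ^ 2 < 4 * A (p 2) / π}

end Vale.Agent.P232.Rigid.Core
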