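import Vale.Agent.P232.Slice.Planar
import Vale.Agent.P232.Slice.Level
import Vale.Agent.P232.Rigid.Core.Calculus
import Vale.Agent.P232.Rigid.Core.Slices

/-!
# P232 rigidity core: the countably many facts used at the chosen level
-/

open MeasureTheory Set Real Filter
open scoped Topology ENNReal

namespace Vale.Agent.P232.Rigid.Core

/-- The radius, in the dilated cube, of the ball of volume `V`. -/
noncomputable def ballRad (V : ℝ) : ℝ := (6 * V / π) ^ ((1 : ℝ) / 3)

/-- The largest slice area of that ball. -/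
noncomputable def ballTop (V : ℝ) : ℝ := π * ballRad V ^ 2 / 4

/-- The rational test parameters. -/
def testR : Set ℝ := range ((↑) : ℚ → ℝ) ∩ Icc 0 1

/-- The test amplitudes: zero and small ones of both signs. -/
noncomputable def testEps : Set ℝ :=
  insert 0 (range fun p : ℕ × Bool => (if p.2 then 1 else -1) / ((p.1 : ℝ) + 16))

theorem countable_testR : testR.Countable := (countable_range _).mono inter_subset_left

theorem countable_testEps : testEps.Countable := (countable_range _).insert _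

theorem abs_le_of_mem_testEps {ε : ℝ} (h : ε ∈ testEps) : |ε| ≤ 1 / 16 := by
  rcases h with rfl | ⟨⟨m, σ⟩, rfl⟩
  · norm_num
  · have hm : (0 : ℝ) < (m : ℝ) + 16 := by positivity
    have e : |(if σ then 1 else -1 : ℝ)| = 1 := by cases σ <;> simp
    rw [abs_div, e, abs_of_pos hm]
    exact one_div_le_one_div_of_le (by norm_num) (by simp)

/-- The perturbed line calibrating the ball, kept below the slice bound. -/
noncomputable def gBall (V r ε a : ℝ) : ℝ :=
  min (√(π * ballTop V) * fld r ε (a / ballTop V)) (pC a)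

/-- The weight of the line `G`. -/
noncomputable def wtOf (G : ℝ → ℝ) (a : ℝ) : ℝ := max 0 (min 1 (G a / pC a))

theorem continuous_pC : Continuous pC := by unfold pC; fun_prop

theorem continuous_gBall (V r ε : ℝ) : Continuous (gBall V r ε) :=
  (continuous_const.mul ((continuous_fld r ε).comp (continuous_id.div_const _))).min continuous_pC

/-- The weights used in the slicing inequality. -/
noncomputable def Wt (V : ℝ) : Set (ℝ → ℝ) :=
  range (fun (m : ℕ) (_ : ℝ) => 1 / ((m : ℝ) + 1)) ∪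
    (fun p : ℝ × ℝ => wtOf (gBall V p.1 p.2)) '' (testR ×ˢ testEps)

theorem countable_Wt (V : ℝ) : (Wt V).Countable :=
  (countable_range _).union ((countable_testR.prod countable_testEps).image _)

theorem wt_spec {V : ℝ} {W : ℝ → ℝ} (h : W ∈ Wt V) :
    Measurable W ∧ ∀ a, W a ∈ Icc (0 : ℝ) 1 := by
  rcases h with ⟨m, rfl⟩ | ⟨⟨r, ε⟩, -, rfl⟩
  · exact ⟨measurable_const, fun _ => ⟨by positivity, (div_le_one (by positivity)).2 (by simp)⟩⟩
  · have := (continuous_gBall V r ε).measurable
    have := continuous_pC.measurable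
    exact ⟨by unfold wtOf; fun_prop,
      fun a => ⟨le_max_left _ _, max_le zero_le_one (min_le_left _ _)⟩⟩

/-- The slicing inequalities at a level. -/
def Slc (V : ℝ) (g : R3 → ℝ) (s : ℝ) : Prop :=
  ∀ W ∈ Wt V, (∫⁻ z in Icc (0 : ℝ) 1, ENNReal.ofReal (W (sliceArea g s z)) * sliceLen g s z) +
    (∫⁻ a in Icc (sliceArea g s 1) (sliceArea g s 0), ENNReal.ofReal √(1 - W a ^ 2)) ≤ levelArea g s

theorem ae_slc (hs : StmtSlice) (V : ℝ) {g : R3 → ℝ} (hg : Good g) : ∀ᵐ s : ℝ, Slc V g s := by
  refine (ae_ball_iff (countable_Wt V)).2 fun W hW => ?_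
  obtain ⟨hm, h01⟩ := wt_spec hW
  refine hs g hg (fun s z => W (sliceArea g s z)) (fun _ a => √(1 - W a ^ 2))
    (hm.comp (measurable_sliceArea hg)) ((measurable_const.sub (hm.pow_const 2)).sqrt.comp measurable_snd)
    (fun _ _ => (h01 _).1) (fun _ _ => sqrt_nonneg _) fun s z _ =>
      sq_add_sqrt_one_sub (h01 _).1 (h01 _).2

/-- Every slice is at least as long as `A (1 - A)`. -/
def LenLow (g : R3 → ℝ) (s : ℝ) : Prop :=
  ∀ᵐ z ∂μI, ENNReal.ofReal (sliceArea g s z * (1 - sliceArea g s z)) ≤ sliceLen g s z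

theorem ae_lenLow {g : R3 → ℝ} (hg : Good g) : ∀ᵐ s : ℝ, LenLow g s := by
  filter_upwards [stmtPlanarNone g hg, stmtPlanarOne g hg 0 ⟨le_rfl, zero_le_one⟩,
    stmtPlanarBoth g hg] with s hn h1 hb
  filter_upwards [hn, h1, hb] with z hn h1 hb
  obtain ⟨hA0, hA1⟩ := sliceArea_mem g s z
  set A := sliceArea g s z
  have hpi := pi_gt_three
  rcases (lenY_mem g s 1 z).1.eq_or_lt with h | hY
  · rcases (lenX_mem g s 1 z).1.eq_or_lt with h' | hX
    · exact (ENNReal.ofReal_le_ofReal (le_sqrt_of_sq_le (by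
        nlinarith [mul_nonneg hA0 (sub_nonneg.2 hA1), mul_le_of_le_one_right hA0
          (show 1 - A ≤ 1 by linarith)]))).trans (hn h.symm h'.symm)
    · exact (ENNReal.ofReal_le_ofReal (by simp [tiltConst_zero]; nlinarith)).trans (h1.2 hX h.symm)
  · rcases (lenX_mem g s 1 z).1.eq_or_lt with h' | hX
    · exact (ENNReal.ofReal_le_ofReal (by simp [tiltConst_zero]; nlinarith)).trans (h1.1 hY h'.symm)
    · exact (ENNReal.ofReal_le_ofReal (le_sqrt_of_sq_le (by
        nlinarith [mul_nonneg hA0 (sub_nonneg.2 hA1), mul_le_of_le_one_left (sub_nonneg.2 hA1)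
          hA1]))).trans (hb hY hX).2.2.1

/-- With contacts at most the cut, slices are at least as long as `pC`, and longer if they touch a
far edge. -/
def LenC (g : R3 → ℝ) (s : ℝ) : Prop :=
  ∀ᵐ z ∂μI, lenY g s 1 z ≤ cut → lenX g s 1 z ≤ cut →
    ENNReal.ofReal (pC (sliceArea g s z)) ≤ sliceLen g s z ∧
      (lenY g s 1 z = 0 ∧ lenX g s 1 z = 0 ∨
        ENNReal.ofReal (min (812 / 1000 + 77 / 100 * sliceArea g s z) (1272 / 1000))
          ≤ sliceLen g s z)

theorem ae_lenC {g : R3 → ℝ} (hg : Good g) : ∀ᵐ s : ℝ, LenC g s := by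
  filter_upwards [stmtPlanarNone g hg,
    stmtPlanarOne g hg (77 / 100) ⟨by norm_num, by norm_num⟩, stmtPlanarBoth g hg] with s hn h1 hb
  filter_upwards [hn, h1, hb] with z hn h1 hb hY0 hX0
  unfold cut at hY0 hX0
  have hle : ∀ {L : ℝ≥0∞},
      ENNReal.ofReal (min (812 / 1000 + 77 / 100 * sliceArea g s z) (1272 / 1000)) ≤ L →
      ENNReal.ofReal (pC (sliceArea g s z)) ≤ L := fun h =>
    (ENNReal.ofReal_le_ofReal (min_le_right _ _)).trans h
  have h77 := tiltConst_077
  have one : ∀ q ≤ (1 / 10 : ℝ), min (812 / 1000 + 77 / 100 * sliceArea g s z) (1272 / 1000) ≤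
      77 / 100 * (sliceArea g s z - q) + tiltConst (77 / 100) := fun q hq =>
    (min_le_left _ _).trans (by linarith)
  rcases (lenY_mem g s 1 z).1.eq_or_lt with h | hY
  · rcases (lenX_mem g s 1 z).1.eq_or_lt with h' | hX
    · exact ⟨(ENNReal.ofReal_le_ofReal (min_le_left _ _)).trans (hn h.symm h'.symm),
        Or.inl ⟨h.symm, h'.symm⟩⟩
    · have := (ENNReal.ofReal_le_ofReal (one _ hX0)).trans (h1.2 hX h.symm)
      exact ⟨hle this, Or.inr this⟩
  · rcases (lenX_mem g s 1 z).1.eq_or_lt with h' | hX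
    · have := (ENNReal.ofReal_le_ofReal (one _ hY0)).trans (h1.1 hY h'.symm)
      exact ⟨hle this, Or.inr this⟩
    · have both : (1272 / 1000 : ℝ) ≤ ((1 - lenY g s 1 z) + (1 - lenX g s 1 z)) / √2 := by
        rw [le_div_iff₀ (sqrt_pos.2 two_pos)]
        nlinarith [sqrt_nonneg (2 : ℝ), sq_sqrt (zero_le_two (α := ℝ))]
      have := (ENNReal.ofReal_le_ofReal ((min_le_right
        (812 / 1000 + 77 / 100 * sliceArea g s z) (1272 / 1000)).trans both)).trans (hb hY hX).2.2.2
      exact ⟨hle this, Or.inr this⟩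

/-- The value of the perturbed disc calibration on a slice without contacts. -/
noncomputable def calVal (r ε : ℝ) (g : R3 → ℝ) (s z : ℝ) : ℝ :=
  lenX g s 0 z * (∫ t in (0 : ℝ)..1, discWt r ε t) +
    ∫ y in Icc (0 : ℝ) 1, fld r ε (clamp (lenX g s y z / lenX g s 0 z))

/-- The planar test inequalities at a level. -/
def Cal (g : R3 → ℝ) (s : ℝ) : Prop :=
  ∀ p ∈ testR ×ˢ testEps, ∀ᵐ z ∂μI, lenY g s 1 z = 0 → lenX g s 1 z = 0 →
    ENNReal.ofReal (calVal p.1 p.2 g s z) ≤ sliceLen g s z

theorem measurable_calVal {g : R3 → ℝ} (hg : Good g) (r ε : ℝ) :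
    Measurable fun a : ℝ × ℝ => calVal r ε g a.1 a.2 := by
  have m0 := hg.meas_lenX (α := ℝ × ℝ) measurable_fst (measurable_const (a := (0 : ℝ))) measurable_snd
  have my := hg.meas_lenX (α := (ℝ × ℝ) × ℝ) measurable_fst.fst measurable_snd measurable_fst.snd
  have hc : Measurable clamp := by unfold clamp; fun_prop
  exact (m0.mul_const _).add (StronglyMeasurable.integral_prod_right'
    (f := fun b : (ℝ × ℝ) × ℝ => fld r ε (clamp (lenX g b.1.1 b.2 b.1.2 / lenX g b.1.1 0 b.1.2)))
    ((continuous_fld r ε).measurable.comp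
      (hc.comp (my.div (m0.comp measurable_fst)))).stronglyMeasurable).measurable

theorem ae_cal {g : R3 → ℝ} (hg : Good g) : ∀ᵐ s : ℝ, Cal g s := by
  refine (ae_ball_iff (countable_testR.prod countable_testEps)).2 fun ⟨r, ε⟩ hp => ?_
  have hr : r ∈ Icc (0 : ℝ) 1 := hp.1.2
  have hε := abs_le_of_mem_testEps hp.2
  have hd : ∀ t, 0 ≤ fld r ε (clamp t) ∧ fld r ε (clamp t) ^ 2 ≤ 1 := fun t =>
    ⟨fld_nonneg hr hε (clamp_mem t).1, (disc_perturb hr hε (clamp_mem t)).1⟩
  have mY := hg.meas_lenY (α := ℝ × ℝ) measurable_fst (measurable_const (a := (1 : ℝ))) measurable_snd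
  have mX := hg.meas_lenX (α := ℝ × ℝ) measurable_fst (measurable_const (a := (1 : ℝ))) measurable_snd
  refine ae_swap_levels ((mY (measurableSet_singleton 0)).himp ((mX (measurableSet_singleton 0)).himp
    (measurableSet_le (measurable_calVal hg r ε).ennreal_ofReal hg.measurable_sliceLen))) fun z hz => ?_
  have h := hg.planarSq hz
  have hc : Measurable clamp := by unfold clamp; fun_prop
  have hp0 : Measurable fun a : ℝ × ℝ × ℝ => clamp (a.2.1 / lenX g a.1 0 z) :=
    hc.comp (measurable_snd.fst.div (hg.meas_lenX measurable_fst measurable_const measurable_const))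
  filter_upwards [h.calib (u := fun s x _ => √(1 - fld r ε (clamp (x / lenX g s 0 z)) ^ 2))
    (v := fun s x _ => fld r ε (clamp (x / lenX g s 0 z)))
    ((((continuous_fld r ε).measurable.comp hp0).pow_const 2).const_sub 1).sqrt
    ((continuous_fld r ε).measurable.comp hp0)
    (fun _ _ _ => sqrt_nonneg _) (fun _ _ _ => (hd _).1)
    (fun _ _ _ => by rw [sq_sqrt (sub_nonneg.2 (hd _).2)]; linarith)] with s hs hY hX
  rw [sliceLen_eq_len hg]
  refine le_trans (ENNReal.ofReal_le_ofReal (le_of_eq ?_)) hs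
  set G := fun x y => g (pt x y z)
  set p := lenX g s 0 z with hpd
  have eX : ∀ y, Planar.hX G s y = lenX g s y z := fun _ => rfl
  have eY : ∀ x, Planar.hY G s x = lenY g s x z := fun _ => rfl
  simp only [eX, eY, hY, hX]
  rw [calVal]
  refine congrArg₂ (· + ·) ?_ ?_
  · rw [Planar.setIntegral_scale (lenX_mem g s 0 z).1
      (f := fun t => √(1 - fld r ε (clamp t) ^ 2))]
    exact congrArg _ (intervalIntegral.integral_congr fun t ht => by
      rw [uIcc_of_le zero_le_one] at ht
      simp only [discWt, clamp_of_mem ht])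
  · refine setIntegral_eq_of_subset_of_ae_sdiff_eq_zero measurableSet_Icc.nullMeasurableSet
      (fun y hy => ⟨hy.1.le, hy.2.le.trans (lenY_mem g s 0 z).2⟩)
      ?_
    filter_upwards [compl_mem_ae_iff.2
      (((finite_singleton (0 : ℝ)).insert (lenY g s 0 z)).measure_zero volume)] with y hne hy
    simp only [mem_compl_iff, mem_insert_iff, mem_singleton_iff, not_or] at hne
    have hlt : lenY g s 0 z < y := by
      refine lt_of_le_of_ne (not_lt.1 fun h' => hy.2 ⟨lt_of_le_of_ne hy.1.1 (Ne.symm hne.2), h'⟩) (Ne.symm hne.1)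
    have e0 : lenX g s y z = 0 := h.symm.hY_eq_zero hy.1 hlt
    have h0 : hat r 0 = 0 := le_antisymm
      ((hat_bounds hr 0).2.1.trans_eq (clamp_of_mem (left_mem_Icc.2 zero_le_one))) (hat_bounds hr 0).1
    simp [e0, clamp, fld, h0]

end Vale.Agent.P232.Rigid.Core
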