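import Vale.Agent.P232.Rigid.Core.CaseDefs

/-!
# P232 rigidity core: tight slices are quarter discs

In a slice whose length tends to `√(π A)` the perturbed disc calibrations give the distribution of
the segment lengths, so the slice is the quarter disc of area `A`.
-/

open MeasureTheory Set Real Filter
open scoped Topology ENNReal

namespace Vale.Agent.P232.Rigid.Core

theorem sqrt_margin {a : ℝ} (ha : a ∈ Icc (0 : ℝ) (7 / 20)) :
    √(π * a) < min (812 / 1000 + 77 / 100 * a) (1272 / 1000) := by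
  have hp : π < 3.1416 := pi_lt_d4
  refine lt_min ?_ ?_
  · rw [Real.sqrt_lt' (by linarith [ha.1])]
    nlinarith [mul_le_mul_of_nonneg_right hp.le ha.1, sq_nonneg (a - 7 / 20), ha.1, ha.2]
  · rw [Real.sqrt_lt' (by norm_num)]
    nlinarith [mul_le_mul_of_nonneg_right hp.le ha.1, ha.2]

theorem integral_discWt_zero (r : ℝ) : ∫ t in (0 : ℝ)..1, discWt r 0 t = π / 4 := by
  rw [← Planar.integral_quarter]
  refine intervalIntegral.integral_congr fun t ht => ?_
  rw [uIcc_of_le zero_le_one] at ht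
  simp only [discWt, fld_zero, Planar.co, Planar.cl_of_mem ht.1 ht.2]

theorem integral_sqrt_disc : ∫ t in (0 : ℝ)..1, √(1 - t ^ 2) = π / 4 := by
  rw [← integral_discWt_zero 0]; simp only [discWt, fld_zero]

/-- The integrated second order bound for the disc weight. -/
theorem integral_discWt_ge {r ε : ℝ} (hr : r ∈ Icc (0 : ℝ) 1) (hε : |ε| ≤ 1 / 16) :
    π / 4 + ε * ((∫ t in (0 : ℝ)..r, √(1 - t ^ 2)) - r * (π / 4)) - 2 * π * ε ^ 2 ≤
      ∫ t in (0 : ℝ)..1, discWt r ε t := by
  obtain ⟨hi, he⟩ := integral_disc_density hr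
  rw [integral_sqrt_disc] at he
  have hh : IntervalIntegrable (fun t => hat r t * (t / √(1 - t ^ 2))) volume 0 1 :=
    hi.continuousOn_mul (continuous_hat r).continuousOn
  have hs : IntervalIntegrable (fun t : ℝ => √(1 - t ^ 2)) volume 0 1 :=
    (by fun_prop : Continuous fun t : ℝ => √(1 - t ^ 2)).intervalIntegrable 0 1
  have hw : IntervalIntegrable (discWt r ε) volume 0 1 :=
    ((continuous_const.sub ((continuous_fld r ε).pow 2)).sqrt).intervalIntegrable 0 1
  have h := intervalIntegral.integral_mono_on zero_le_one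
    ((hs.add (hh.const_mul ε)).sub (hs.const_mul (8 * ε ^ 2))) hw fun t ht =>
      le_trans (le_of_eq (by ring)) (disc_perturb hr hε ht).2
  rw [intervalIntegral.integral_sub (hs.add (hh.const_mul ε)) (hs.const_mul _),
    intervalIntegral.integral_add hs (hh.const_mul ε), intervalIntegral.integral_const_mul,
    intervalIntegral.integral_const_mul, he, integral_sqrt_disc] at h
  linarith

theorem clamp_div_mem {a b : ℝ} (h0 : 0 ≤ a) (h : a ≤ b) : clamp (a / b) = a / b :=
  clamp_of_mem ⟨div_nonneg h0 (h0.trans h), div_le_one_of_le₀ h (h0.trans h)⟩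

theorem clamp_mono : Monotone clamp := fun _ _ h => max_le_max le_rfl (min_le_min h le_rfl)

theorem continuous_clamp : Continuous clamp :=
  continuous_const.max (continuous_id.min continuous_const)

variable {V s : ℝ} {E : Set R3} {g : ℕ → R3 → ℝ}

/-- In a tight slice the points are eventually inside exactly in the quarter disc. -/
theorem disc_of_tight (h : SeqC V E g s) {A z : ℝ} (hA0 : 0 < A) (hA : A ≤ 7 / 20)
    (hz : z ∈ Icc (0 : ℝ) 1) (ht : Tight g s z A)
    (hlen : ∀ k, lenY (g k) s 1 z ≤ cut → lenX (g k) s 1 z ≤ cut →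
      ENNReal.ofReal (pC (sliceArea (g k) s z)) ≤ sliceLen (g k) s z ∧
        (lenY (g k) s 1 z = 0 ∧ lenX (g k) s 1 z = 0 ∨
          ENNReal.ofReal (min (812 / 1000 + 77 / 100 * sliceArea (g k) s z) (1272 / 1000))
            ≤ sliceLen (g k) s z))
    (hcal : ∀ k, ∀ p ∈ testR ×ˢ testEps, lenY (g k) s 1 z = 0 → lenX (g k) s 1 z = 0 →
      ENNReal.ofReal (calVal p.1 p.2 (g k) s z) ≤ sliceLen (g k) s z)
    (hX : ∀ᵐ y ∂μI, Tendsto (fun k => lenX (g k) s y z) atTop (𝓝 (widX E y z))) :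
    ∀ᵐ y ∂μI, ∀ᵐ x ∂μI, ∀ᶠ k in atTop, (s < g k (pt x y z) ↔ x ^ 2 + y ^ 2 < 4 * A / π) := by
  set ρ := √(4 * A / π) with hρ
  have hρ0 : 0 < ρ := sqrt_pos.2 (by positivity)
  have hρ2 : ρ ^ 2 = 4 * A / π := sq_sqrt (by positivity)
  have hAρ : A = π * ρ ^ 2 / 4 := by rw [hρ2]; field_simp
  have hsA : √(π * A) = π * ρ / 2 := by
    rw [sqrt_eq_iff_mul_self_eq (by positivity) (by positivity), hAρ]; ring
  have hsq := fun k => (h.good k).planarSq hz
  have hY0 : ∀ k, lenY (g k) s 1 z ≤ cut ∧ lenX (g k) s 1 z ≤ cut := fun k =>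
    ⟨(lenY_anti_z (h.good k) s (right_mem_Icc.2 zero_le_one) (left_mem_Icc.2 zero_le_one) hz hz.1).trans
      (h.contacts k).1,
    (lenX_anti_z (h.good k) s (right_mem_Icc.2 zero_le_one) (left_mem_Icc.2 zero_le_one) hz hz.1).trans
      (h.contacts k).2⟩
  have hnone : ∀ᶠ k in atTop, lenY (g k) s 1 z = 0 ∧ lenX (g k) s 1 z = 0 := by
    set b := min (812 / 1000 + 77 / 100 * A) (1272 / 1000)
    have hb : √(π * A) < b := sqrt_margin ⟨hA0.le, hA⟩
    have hc : Tendsto (fun k => min (812 / 1000 + 77 / 100 * sliceArea (g k) s z) (1272 / 1000))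
        atTop (𝓝 b) := ((ht.area.const_mul _).const_add _).min tendsto_const_nhds
    filter_upwards [ht.len hA0 ((b - √(π * A)) / 2) (by linarith),
      hc.eventually (eventually_gt_nhds (show √(π * A) + (b - √(π * A)) / 2 < b by linarith))]
      with k hk hk'
    refine (hlen k (hY0 k).1 (hY0 k).2).2.resolve_right fun hcon => ?_
    exact absurd ((ENNReal.ofReal_le_ofReal_iff (add_nonneg (sqrt_nonneg _) (by linarith))).1
      (hcon.trans hk)) (not_le.2 hk')
  have key : ∀ p ∈ testR ×ˢ testEps, ∀ η > 0, ∀ᶠ k in atTop,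
      calVal p.1 p.2 (g k) s z ≤ √(π * A) + η := fun p hp η hη => by
    filter_upwards [hnone, ht.len hA0 η hη] with k hk hk'
    exact (ENNReal.ofReal_le_ofReal_iff (by positivity)).1 ((hcal k p hp hk.1 hk.2).trans hk')
  -- the bases
  have hXle : ∀ k, ∀ y ∈ Icc (0 : ℝ) 1, lenX (g k) s y z ≤ lenX (g k) s 0 z := fun k y hy =>
    (hsq k).hX_le hy
  have harea : ∀ k, ∫ y in Icc (0 : ℝ) 1, lenX (g k) s y z = sliceArea (g k) s z := fun k =>
    ((hsq k).area_symm s).symm
  have hmX : ∀ k, Measurable fun y => lenX (g k) s y z := fun k =>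
    (h.good k).meas_lenX measurable_const measurable_id measurable_const
  have hint : ∀ k, Integrable (fun y => lenX (g k) s y z) μI := fun k =>
    (integrable_const (1 : ℝ)).mono' (hmX k).aestronglyMeasurable (Eventually.of_forall fun y => by
      rw [Real.norm_eq_abs, abs_of_nonneg (lenX_mem _ s y z).1]; exact (lenX_mem _ s y z).2)
  have hAk : ∀ k, sliceArea (g k) s z ≤ lenX (g k) s 0 z := fun k => by
    rw [← harea k]
    refine (integral_mono_ae (hint k) (integrable_const (lenX (g k) s 0 z)) ?_).trans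
      (le_of_eq (by simp))
    filter_upwards [ae_restrict_mem measurableSet_Icc] with y hy using hXle k y hy
  have h00 : ((0 : ℝ), (0 : ℝ)) ∈ testR ×ˢ testEps :=
    ⟨⟨⟨0, by simp⟩, left_mem_Icc.2 zero_le_one⟩, mem_insert _ _⟩
  have hp : Tendsto (fun k => lenX (g k) s 0 z) atTop (𝓝 ρ) := by
    refine Metric.tendsto_nhds.2 fun δ hδ => ?_
    filter_upwards [key _ h00 (δ ^ 2 / 4) (by positivity),
      Metric.tendsto_nhds.1 ht.area (δ ^ 2 / 4) (by positivity),
      ht.area.eventually (eventually_gt_nhds hA0)] with k hk hk' hpos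
    set p := lenX (g k) s 0 z
    have hp1 : p ≤ 1 := (lenX_mem _ s 0 z).2
    have hp0 : 0 < p := hpos.trans_le (hAk k)
    have e : calVal 0 0 (g k) s z = p * (π / 4) + sliceArea (g k) s z / p := by
      rw [calVal, integral_discWt_zero, ← harea k, ← integral_div]
      refine congrArg₂ _ rfl (setIntegral_congr_fun measurableSet_Icc fun y hy => ?_)
      rw [fld_zero, clamp_div_mem (lenX_mem _ s y z).1 (hXle k y hy)]
    rw [e, hsA] at hk
    have h1 : π / 4 * (p - ρ) ^ 2 ≤ δ ^ 2 / 4 * p + (A - sliceArea (g k) s z) := by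
      have h2 : p * (p * (π / 4) + sliceArea (g k) s z / p) = p ^ 2 * (π / 4) + sliceArea (g k) s z := by
        field_simp
      nlinarith [mul_le_mul_of_nonneg_left hk hp0.le]
    rw [Real.dist_eq] at hk' ⊢
    have h3 : π / 4 * (p - ρ) ^ 2 < 3 / 4 * δ ^ 2 := by
      nlinarith [(abs_lt.1 hk').1, (abs_lt.1 hk').2, sq_pos_of_pos hδ]
    have h4 : 3 / 4 * (p - ρ) ^ 2 ≤ π / 4 * (p - ρ) ^ 2 :=
      mul_le_mul_of_nonneg_right (by linarith [pi_gt_three]) (sq_nonneg _)
    exact abs_lt_of_sq_lt_sq (by linarith) hδ.le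
  -- the limit of the calibrations
  set S : ℝ → ℝ := fun y => clamp (widX E y z / ρ) with hS
  have hSm : Measurable S :=
    continuous_clamp.measurable.comp ((measurable_widX h.meas z).div_const ρ)
  have hlim : ∀ r ε, Tendsto
      (fun k => ∫ y in Icc (0 : ℝ) 1, fld r ε (clamp (lenX (g k) s y z / lenX (g k) s 0 z))) atTop
      (𝓝 (∫ y in Icc (0 : ℝ) 1, fld r ε (S y))) := fun r ε => by
    obtain ⟨C, hC⟩ := (isCompact_Icc (a := (0 : ℝ)) (b := 1)).exists_bound_of_continuousOn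
      (continuous_fld r ε).continuousOn
    refine tendsto_integral_of_dominated_convergence (fun _ => C) (fun k =>
      ((continuous_fld r ε).measurable.comp (continuous_clamp.measurable.comp
        ((hmX k).div_const _))).aestronglyMeasurable) (integrable_const _)
      (fun k => Eventually.of_forall fun y => hC _ (clamp_mem _)) ?_
    filter_upwards [hX] with y hy
    exact (((continuous_fld r ε).comp continuous_clamp).tendsto _).comp (hy.div hp hρ0.ne')
  have hSA : ∫ y in Icc (0 : ℝ) 1, S y = A / ρ := by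
    have h1 := hlim 0 0
    simp only [fld_zero] at h1
    refine tendsto_nhds_unique h1 ((ht.area.div hp hρ0.ne').congr fun k => ?_)
    show sliceArea (g k) s z / lenX (g k) s 0 z = _
    rw [← harea k, ← integral_div]
    exact setIntegral_congr_fun measurableSet_Icc fun y hy =>
      (clamp_div_mem (lenX_mem _ s y z).1 (hXle k y hy)).symm
  have hSi : Integrable S μI := (integrable_const (1 : ℝ)).mono' hSm.aestronglyMeasurable
    (Eventually.of_forall fun y => by
      rw [Real.norm_eq_abs, hS, abs_of_nonneg (clamp_mem _).1]; exact (clamp_mem _).2)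
  have hhi : ∀ r, Integrable (fun y => hat r (S y)) μI := fun r => by
    obtain ⟨C, hC⟩ := (isCompact_Icc (a := (0 : ℝ)) (b := 1)).exists_bound_of_continuousOn
      (continuous_hat r).continuousOn
    exact (integrable_const C).mono' ((continuous_hat r).measurable.comp hSm).aestronglyMeasurable
      (Eventually.of_forall fun y => hC _ (clamp_mem _))
  have hr : ∀ r : ℚ, 0 ≤ r → r ≤ 1 → ∫ y in Icc (0 : ℝ) 1, hat r (S y) =
      (∫ t in (0 : ℝ)..(r : ℝ), ρ * √(1 - t ^ 2)) - r * ∫ t in (0 : ℝ)..1, ρ * √(1 - t ^ 2) := by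
    intro r hr0 hr1
    have hrI : (r : ℝ) ∈ Icc (0 : ℝ) 1 := ⟨by exact_mod_cast hr0, by exact_mod_cast hr1⟩
    simp only [intervalIntegral.integral_const_mul, integral_sqrt_disc]
    set I2 := (∫ t in (0 : ℝ)..(r : ℝ), √(1 - t ^ 2)) - r * (π / 4) with hI2
    suffices ρ * I2 - ∫ y in Icc (0 : ℝ) 1, hat r (S y) = 0 by rw [hI2] at this; linarith
    refine eq_zero_of_quadratic (K := 2 * π * ρ) fun m hm σ => ?_
    set e : ℝ := (if σ then 1 else -1) / (m : ℝ) with he
    have hmem : ((r : ℝ), e) ∈ testR ×ˢ testEps :=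
      ⟨⟨⟨r, rfl⟩, hrI⟩, mem_insert_of_mem _ ⟨(m - 16, σ), by simp [he, Nat.cast_sub hm]⟩⟩
    have hle : ρ * (∫ t in (0 : ℝ)..1, discWt r e t) + ∫ y in Icc (0 : ℝ) 1, fld r e (S y) ≤
        √(π * A) := le_of_forall_pos_le_add fun η hη =>
      le_of_tendsto ((hp.mul_const _).add (hlim r e)) (key _ hmem η hη)
    have hfl : ∫ y in Icc (0 : ℝ) 1, fld r e (S y) =
        A / ρ - e * ∫ y in Icc (0 : ℝ) 1, hat r (S y) := by
      simp only [fld]
      rw [integral_sub hSi ((hhi r).const_mul e), integral_const_mul, hSA]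
    have hJ : ρ * (π / 4 + e * I2 - 2 * π * e ^ 2) ≤ ρ * ∫ t in (0 : ℝ)..1, discWt r e t :=
      mul_le_mul_of_nonneg_left (integral_discWt_ge hrI (abs_le_of_mem_testEps hmem.2)) hρ0.le
    have hdiv : A / ρ = π * ρ / 4 := by rw [hAρ]; field_simp
    rw [hfl, hdiv, hsA] at hle
    linarith
  obtain ⟨G, hG, hanti⟩ : ∃ G : Set ℝ, (∀ᵐ y ∂μI, y ∈ G) ∧
      ∀ y ∈ G, ∀ y' ∈ G, y ≤ y' → S y' ≤ S y := by
    refine ⟨{y | y ∈ Icc (0 : ℝ) 1 ∧ Tendsto (fun k => lenX (g k) s y z) atTop (𝓝 (widX E y z))},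
      ?_, fun y hy y' hy' hle => clamp_mono ?_⟩
    · filter_upwards [hX, ae_restrict_mem measurableSet_Icc] with y h1 h2 using ⟨h2, h1⟩
    · exact div_le_div_of_nonneg_right (le_of_tendsto_of_tendsto' hy'.2 hy.2 fun k =>
        lenX_anti (hsq k) s hy.1 hy'.1 hle) hρ0.le
  have hprof := profile_of_hat (Z := fun t => ρ * √(1 - t ^ 2)) hSm (fun y => clamp_mem _) hG hanti
    (by fun_prop) (fun a ha b hb hab => mul_le_mul_of_nonneg_left
      (sqrt_le_sqrt (by nlinarith [ha.1, pow_le_pow_left₀ ha.1 hab 2])) hρ0.le)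
    (by rw [hSA, intervalIntegral.integral_const_mul, integral_sqrt_disc, hAρ]; field_simp) hr
  have hIoo : ∀ᵐ u ∂μI, u ∈ Ioo (0 : ℝ) 1 := by
    rw [μI, ← restrict_Ioo_eq_restrict_Icc]; exact ae_restrict_mem measurableSet_Ioo
  filter_upwards [hprof, hX, hIoo] with y hy hT hyI
  filter_upwards [hIoo, ae_restrict_of_ae
    ((countable_singleton (√(ρ ^ 2 - y ^ 2))).ae_notMem (volume : Measure ℝ))] with x hx hne
  rw [← hρ2]
  have hzy := fun k => (hsq k).antiX (Ioo_subset_Icc_self hyI)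
  rcases lt_trichotomy (x ^ 2 + y ^ 2) (ρ ^ 2) with hlt | heq | hgt
  · have hxρ : x < ρ := lt_of_pow_lt_pow_left₀ 2 hρ0.le (by nlinarith [sq_nonneg y])
    have ht1 : x / ρ ∈ Ioo (0 : ℝ) 1 := ⟨div_pos hx.1 hρ0, (div_lt_one hρ0).2 hxρ⟩
    have hyZ : y < ρ * √(1 - (x / ρ) ^ 2) := by
      rw [← sqrt_sq hρ0.le, ← sqrt_mul (sq_nonneg ρ), sqrt_sq hρ0.le, Real.lt_sqrt hyI.1.le]
      rw [mul_sub, div_pow, mul_div_cancel₀ _ (pow_ne_zero 2 hρ0.ne'), mul_one]
      linarith
    have hxT : x < widX E y z := by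
      by_contra hcon
      have : clamp (widX E y z / ρ) ≤ clamp (x / ρ) :=
        clamp_mono (div_le_div_of_nonneg_right (not_lt.1 hcon) hρ0.le)
      rw [clamp_of_mem (Ioo_subset_Icc_self ht1)] at this
      exact absurd ((hy _ ht1).1 hyZ) (not_lt.2 this)
    filter_upwards [hT.eventually (eventually_gt_nhds hxT)] with k hk
    exact iff_of_true (Planar.lt_apply (hzy k) (Ioo_subset_Icc_self hx) hk) hlt
  · exact absurd (mem_singleton_iff.2 ((sqrt_eq_iff_mul_self_eq (by nlinarith) hx.1.le).2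
      (by nlinarith)).symm) hne
  · have hTx : widX E y z < x := by
      have hTρ : widX E y z ≤ ρ := le_of_tendsto_of_tendsto' hT hp fun k =>
        hXle k y (Ioo_subset_Icc_self hyI)
      rcases lt_or_ge ρ x with hρx | hxρ
      · exact hTρ.trans_lt hρx
      set x' := max (x / 2) (x - (x ^ 2 + y ^ 2 - ρ ^ 2) / 4)
      have hx' : x' < x := max_lt (by linarith [hx.1]) (by linarith)
      have hx'0 : 0 < x' := lt_max_of_lt_left (by linarith [hx.1])
      have ht1 : x' / ρ ∈ Ioo (0 : ℝ) 1 :=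
        ⟨div_pos hx'0 hρ0, (div_lt_one hρ0).2 (hx'.trans_le hxρ)⟩
      have hZy : ρ * √(1 - (x' / ρ) ^ 2) < y := by
        rw [← sqrt_sq hρ0.le, ← sqrt_mul (sq_nonneg ρ), sqrt_sq hρ0.le, Real.sqrt_lt' hyI.1]
        rw [mul_sub, div_pow, mul_div_cancel₀ _ (pow_ne_zero 2 hρ0.ne'), mul_one]
        nlinarith [le_max_right (x / 2) (x - (x ^ 2 + y ^ 2 - ρ ^ 2) / 4), hx.2, hx'0, hx.1]
      have h1 := (hy _ ht1).2 hZy
      simp only [hS, clamp_div_mem (widX_mem E y z).1 hTρ] at h1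
      exact ((div_le_div_iff_of_pos_right hρ0).1 h1).trans_lt hx'
    filter_upwards [hT.eventually (eventually_lt_nhds hTx)] with k hk
    exact iff_of_false (not_lt.2 (Planar.apply_lt (hzy k) (Ioo_subset_Icc_self hx) hk).le)
      (not_lt.2 hgt.le)
where
  lenX_anti {g : R3 → ℝ} {z : ℝ} (hq : Planar.Sq (fun x y => g (pt x y z))
      (fun x y => pd g 0 (pt x y z)) (fun x y => pd g 1 (pt x y z))) (s : ℝ) {y y' : ℝ}
      (hy : y ∈ Icc (0 : ℝ) 1) (hy' : y' ∈ Icc (0 : ℝ) 1) (hle : y ≤ y') :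
      lenX g s y' z ≤ lenX g s y z := hq.symm.antitone_hY s hy hy' hle

theorem stmtDiscSlices : StmtDiscSlices := by
  intro V E g s h A hAm hA ht
  have hmset : MeasurableSet {p : R3 | p 0 ^ 2 + p 1 ^ 2 < 4 * A (p 2) / π} :=
    measurableSet_lt (((measurable_pi_apply 0).pow_const 2).add ((measurable_pi_apply 1).pow_const 2))
      (((hAm.comp (measurable_pi_apply 2)).const_mul 4).div_const π)
  have hiff : MeasurableSet
      {p : R3 | p ∈ E ↔ p ∈ {p : R3 | p 0 ^ 2 + p 1 ^ 2 < 4 * A (p 2) / π}} :=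
    MeasurableSet.iff (p := fun p => p ∈ E)
      (q := fun p => p ∈ {p : R3 | p 0 ^ 2 + p 1 ^ 2 < 4 * A (p 2) / π}) h.meas hmset
  refine eventuallyEq_set.2 (ae_of_slices hiff ?_)
  filter_upwards [ht, Agree.slices h.meas h.good h.agree, ae_all_iff.2 h.lenC,
    ae_all_iff.2 fun k => (ae_ball_iff (countable_testR.prod countable_testEps)).2 (h.cal k),
    ae_restrict_mem measurableSet_Icc] with z ht hsl hlen hcal hz
  obtain ⟨hag, -, hX⟩ := hsl
  have hIoo : ∀ᵐ u ∂μI, u ∈ Ioo (0 : ℝ) 1 := by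
    rw [μI, ← restrict_Ioo_eq_restrict_Icc]; exact ae_restrict_mem measurableSet_Ioo
  refine (Measure.ae_prod_iff_ae_ae ?_).2 ?_
  · exact (Slice.measurable_pt measurable_fst measurable_snd measurable_const) hiff
  have hev : ∀ᵐ x ∂μI, ∀ᵐ y ∂μI, ∀ᶠ k in atTop,
      (s < g k (pt x y z) ↔ x ^ 2 + y ^ 2 < 4 * A z / π) := by
    rcases (hA z).1.eq_or_lt with h0 | hpos
    · filter_upwards [hIoo] with x hx
      filter_upwards [hIoo] with y hy
      filter_upwards [eventually_not_mem_of_tendsto_zero h.good hz (h0 ▸ ht.area) hx hy] with k hk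
      refine iff_of_false hk ?_
      rw [← h0, mul_zero, zero_div, not_lt]
      positivity
    · refine (Measure.ae_ae_comm ?_).1 (disc_of_tight h hpos (hA z).2 hz ht hlen hcal hX)
      exact measurableSet_eventually_iff h.good
  filter_upwards [hev, Measure.ae_ae_of_ae_prod hag] with x hx hx'
  filter_upwards [hx, hx'] with y hy hy'
  obtain ⟨k, hk, hk'⟩ := (hy.and hy').exists
  exact hk'.symm.trans (hk.trans (by simp [pt]))
where
  measurableSet_eventually_iff {g : ℕ → R3 → ℝ} {s z c : ℝ} (hg : ∀ k, Good (g k)) :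
      MeasurableSet {a : ℝ × ℝ |
        ∀ᶠ k in atTop, (s < g k (pt a.2 a.1 z) ↔ a.2 ^ 2 + a.1 ^ 2 < c)} := by
    have e : {a : ℝ × ℝ | ∀ᶠ k in atTop, (s < g k (pt a.2 a.1 z) ↔ a.2 ^ 2 + a.1 ^ 2 < c)} =
        ⋃ N, ⋂ k ∈ Ici N, {a : ℝ × ℝ | s < g k (pt a.2 a.1 z) ↔ a.2 ^ 2 + a.1 ^ 2 < c} := by
      ext a; simp [eventually_atTop]
    rw [e]
    refine .iUnion fun N => .biInter (to_countable _) fun k _ => ?_
    exact (measurableSet_lt measurable_const
      ((hg k).meas_g measurable_snd measurable_fst measurable_const)).iff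
      (measurableSet_lt ((measurable_snd.pow_const 2).add (measurable_fst.pow_const 2))
        measurable_const)

end Vale.Agent.P232.Rigid.Core
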