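import Vale.Agent.P232.OneDim.CaseC
import Vale.Agent.P232.Rigid.Core.CaseDefs

/-!
# P232 rigidity core: the slice areas of balls and tubes

Equality in the calibrated slicing inequality, for the calibrations perturbed by hats, determines
the limiting profile of the slice areas and forces the slice lengths down to the planar bound.
-/

open MeasureTheory Set Real Filter
open scoped Topology ENNReal

namespace Vale.Agent.P232.Rigid.Core

variable {V : ℝ} {E : Set R3} {g : ℕ → R3 → ℝ} {s a₀ b₀ : ℝ}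

theorem SeqC.lenC_ae (h : SeqC V E g s) (k : ℕ) :
    ∀ᵐ z ∂μI, ENNReal.ofReal (pC (sliceArea (g k) s z)) ≤ sliceLen (g k) s z := by
  filter_upwards [h.lenC k, ae_restrict_mem measurableSet_Icc] with z hz hzI
  have h1 : (1 : ℝ) ∈ Icc (0 : ℝ) 1 := right_mem_Icc.2 zero_le_one
  have h0 : (0 : ℝ) ∈ Icc (0 : ℝ) 1 := left_mem_Icc.2 zero_le_one
  exact (hz ((lenY_anti_z (h.good k) s h1 h0 hzI hzI.1).trans (h.contacts k).1)
    ((lenX_anti_z (h.good k) s h1 h0 hzI hzI.1).trans (h.contacts k).2)).1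

theorem sliceA_between (h : Seq V E g s)
    (ha : Tendsto (fun k => sliceArea (g k) s 0) atTop (𝓝 a₀))
    (hb : Tendsto (fun k => sliceArea (g k) s 1) atTop (𝓝 b₀)) :
    ∀ᵐ z ∂μI, sliceA E z ∈ Icc b₀ a₀ := by
  filter_upwards [Agree.slices h.meas h.good h.agree, ae_restrict_mem measurableSet_Icc]
    with z hz hzI
  exact ⟨le_of_tendsto_of_tendsto' hb hz.2.1 fun k =>
      antitoneOn_sliceArea (h.good k) s hzI (right_mem_Icc.2 zero_le_one) hzI.2,
    le_of_tendsto_of_tendsto' hz.2.1 ha fun k =>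
      antitoneOn_sliceArea (h.good k) s (left_mem_Icc.2 zero_le_one) hzI hzI.1⟩

theorem ends_mem (ha : Tendsto (fun k => sliceArea (g k) s 0) atTop (𝓝 a₀)) : a₀ ∈ Icc (0 : ℝ) 1 :=
  isClosed_Icc.mem_of_tendsto ha (Eventually.of_forall fun k => sliceArea_mem (g k) s 0)

/-- The Bochner form of the weight term. -/
theorem lintegral_weight {W : ℝ → ℝ} (hW : Measurable W) {b a : ℝ} (hba : b ≤ a) :
    ∫⁻ x in Icc b a, ENNReal.ofReal √(1 - W x ^ 2)
      = ENNReal.ofReal (∫ x in b..a, √(1 - W x ^ 2)) := by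
  have hi : IntegrableOn (fun x => √(1 - W x ^ 2)) (Icc b a) :=
    (integrableOn_const (C := (1 : ℝ)) (by simp)).mono'
      (hW.pow_const 2 |>.const_sub 1).sqrt.aestronglyMeasurable
      (Eventually.of_forall fun x => by
        rw [Real.norm_of_nonneg (sqrt_nonneg _)]
        exact sqrt_le_one.2 (by nlinarith [sq_nonneg (W x)]))
  rw [← ofReal_integral_eq_lintegral_ofReal hi (Eventually.of_forall fun x => sqrt_nonneg _),
    intervalIntegral.integral_of_le hba, integral_Icc_eq_integral_Ioc]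

theorem intervalIntegrable_weight {W : ℝ → ℝ} (hW : Measurable W) (b a : ℝ) :
    IntervalIntegrable (fun x => √(1 - W x ^ 2)) volume b a :=
  (intervalIntegrable_const (c := (1 : ℝ))).mono_fun
    (hW.pow_const 2 |>.const_sub 1).sqrt.aestronglyMeasurable
    (Eventually.of_forall fun x => by
      simp only [norm_one, Real.norm_of_nonneg (sqrt_nonneg _)]
      exact sqrt_le_one.2 (by nlinarith [sq_nonneg (W x)]))

/-- The excess of the slice lengths over the planar bound, weighted by `W`. -/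
noncomputable def gap (W : ℝ → ℝ) (g : R3 → ℝ) (s : ℝ) : ℝ≥0∞ :=
  ∫⁻ z in Icc (0 : ℝ) 1, ENNReal.ofReal (W (sliceArea g s z)) *
    (sliceLen g s z - ENNReal.ofReal (pC (sliceArea g s z)))

theorem measurable_area_at {g : R3 → ℝ} (hg : Good g) (s : ℝ) :
    Measurable fun z => sliceArea g s z :=
  (measurable_sliceArea hg).comp measurable_prodMk_left

theorem measurable_gap_term {W : ℝ → ℝ} (hW : Measurable W) {g : R3 → ℝ} (hg : Good g) (s : ℝ) :
    Measurable fun z => ENNReal.ofReal (W (sliceArea g s z)) *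
      (sliceLen g s z - ENNReal.ofReal (pC (sliceArea g s z))) :=
  (hW.comp (measurable_area_at hg s)).ennreal_ofReal.mul
    ((hg.measurable_sliceLen.comp measurable_prodMk_left).sub
      (continuous_pC.measurable.comp (measurable_area_at hg s)).ennreal_ofReal)

/-- The slicing inequality, split into the calibrated value and the gap. -/
theorem gap_ineq (h : SeqC V E g s) {W F : ℝ → ℝ} (hW : W ∈ Wt V) (hF : Continuous F)
    (hWF : ∀ a ∈ Icc (0 : ℝ) 1, F a = W a * pC a) (k : ℕ) :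
    ENNReal.ofReal ((∫ z in Icc (0 : ℝ) 1, F (sliceArea (g k) s z)) +
      ∫ a in sliceArea (g k) s 1..sliceArea (g k) s 0, √(1 - W a ^ 2)) + gap W (g k) s
        ≤ levelArea (g k) s := by
  obtain ⟨hm, h01⟩ := wt_spec hW
  have hba : sliceArea (g k) s 1 ≤ sliceArea (g k) s 0 :=
    antitoneOn_sliceArea (h.good k) s (left_mem_Icc.2 zero_le_one) (right_mem_Icc.2 zero_le_one)
      zero_le_one
  have hF0 : ∀ z, 0 ≤ F (sliceArea (g k) s z) := fun z => by
    rw [hWF _ (sliceArea_mem _ _ _)]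
    exact mul_nonneg (h01 _).1 (CaseC.pC_nonneg (sliceArea_mem _ _ _).1)
  have hFm : Measurable fun z => F (sliceArea (g k) s z) :=
    hF.measurable.comp (measurable_area_at (h.good k) s)
  obtain ⟨C, hC⟩ := (isCompact_Icc (a := (0 : ℝ)) (b := 1)).exists_bound_of_continuousOn hF.continuousOn
  have hFi : IntegrableOn (fun z => F (sliceArea (g k) s z)) (Icc 0 1) :=
    (integrableOn_const (C := C) (by simp)).mono' hFm.aestronglyMeasurable
      (Eventually.of_forall fun z => hC _ (sliceArea_mem _ _ _))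
  refine le_trans ?_ (h.slc k W hW)
  rw [lintegral_weight hm hba, ENNReal.ofReal_add (setIntegral_nonneg measurableSet_Icc fun z _ => hF0 z)
    (intervalIntegral.integral_nonneg hba fun _ _ => sqrt_nonneg _), add_right_comm]
  refine add_le_add_left ?_ _
  rw [ofReal_integral_eq_lintegral_ofReal hFi (Eventually.of_forall hF0), gap,
    ← lintegral_add_left hFm.ennreal_ofReal]
  refine lintegral_mono_ae ?_
  filter_upwards [h.lenC_ae k] with z hz
  rw [hWF _ (sliceArea_mem _ _ _), ENNReal.ofReal_mul (h01 _).1, ← mul_add,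
    add_tsub_cancel_of_le hz]

/-- The calibrated value in the limit. -/
theorem tendsto_value (h : SeqC V E g s) {W F : ℝ → ℝ} (hW : W ∈ Wt V) (hF : Continuous F)
    (ha : Tendsto (fun k => sliceArea (g k) s 0) atTop (𝓝 a₀))
    (hb : Tendsto (fun k => sliceArea (g k) s 1) atTop (𝓝 b₀)) :
    Tendsto (fun k => (∫ z in Icc (0 : ℝ) 1, F (sliceArea (g k) s z)) +
        ∫ a in sliceArea (g k) s 1..sliceArea (g k) s 0, √(1 - W a ^ 2)) atTop
      (𝓝 ((∫ z in Icc (0 : ℝ) 1, F (sliceA E z)) + ∫ a in b₀..a₀, √(1 - W a ^ 2))) := by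
  obtain ⟨hm, -⟩ := wt_spec hW
  obtain ⟨C, hC⟩ := (isCompact_Icc (a := (0 : ℝ)) (b := 1)).exists_bound_of_continuousOn hF.continuousOn
  refine Tendsto.add (tendsto_integral_of_dominated_convergence (fun _ => C)
    (fun k => (hF.measurable.comp (measurable_area_at (h.good k) s)).aestronglyMeasurable)
    (integrable_const _) (fun k => Eventually.of_forall fun z => hC _ (sliceArea_mem _ _ _))
    ((Agree.slices h.meas h.good h.agree).mono fun z hz => (hF.tendsto _).comp hz.2.1)) ?_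
  have hc : Continuous fun x : ℝ => ∫ a in (0 : ℝ)..x, √(1 - W a ^ 2) :=
    intervalIntegral.continuous_primitive (fun _ _ => intervalIntegrable_weight hm _ _) 0
  have e : ∀ b a : ℝ, ∫ x in b..a, √(1 - W x ^ 2)
      = (∫ x in (0 : ℝ)..a, √(1 - W x ^ 2)) - ∫ x in (0 : ℝ)..b, √(1 - W x ^ 2) := fun b a =>
    (intervalIntegral.integral_interval_sub_left (intervalIntegrable_weight hm _ _)
      (intervalIntegrable_weight hm _ _)).symm
  rw [e b₀ a₀]
  exact (((hc.tendsto _).comp ha).sub ((hc.tendsto _).comp hb)).congr fun k => (e _ _).symm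

/-- The calibrated value is at most the candidate. -/
theorem value_le (h : SeqC V E g s) {W F : ℝ → ℝ} (hW : W ∈ Wt V) (hF : Continuous F)
    (hWF : ∀ a ∈ Icc (0 : ℝ) 1, F a = W a * pC a)
    (ha : Tendsto (fun k => sliceArea (g k) s 0) atTop (𝓝 a₀))
    (hb : Tendsto (fun k => sliceArea (g k) s 1) atTop (𝓝 b₀)) (hV : 0 ≤ cubeCandidate V) :
    (∫ z in Icc (0 : ℝ) 1, F (sliceA E z)) + (∫ a in b₀..a₀, √(1 - W a ^ 2)) ≤ cubeCandidate V := by
  refine le_of_forall_pos_le_add fun ε hε => le_of_tendsto (tendsto_value h hW hF ha hb) ?_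
  filter_upwards [h.area ε hε] with k hk
  exact (ENNReal.ofReal_le_ofReal_iff (by linarith)).1
    ((le_self_add.trans (gap_ineq h hW hF hWF k)).trans hk)

/-- Equality forces the slice lengths down to the planar bound along a subsequence. -/
theorem exists_tight (h : SeqC V E g s) {W F : ℝ → ℝ} (hW : W ∈ Wt V) (hF : Continuous F)
    (hWF : ∀ a ∈ Icc (0 : ℝ) 1, F a = W a * pC a)
    (ha : Tendsto (fun k => sliceArea (g k) s 0) atTop (𝓝 a₀))
    (hb : Tendsto (fun k => sliceArea (g k) s 1) atTop (𝓝 b₀))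
    (heq : cubeCandidate V ≤
      (∫ z in Icc (0 : ℝ) 1, F (sliceA E z)) + ∫ a in b₀..a₀, √(1 - W a ^ 2)) :
    ∃ φ : ℕ → ℕ, StrictMono φ ∧ ∀ᵐ z ∂μI,
      Tendsto (fun k => sliceArea (g (φ k)) s z) atTop (𝓝 (sliceA E z)) ∧
      (ContinuousAt W (sliceA E z) → 0 < W (sliceA E z) → ∀ ε > 0, ∀ᶠ k in atTop,
        sliceLen (g (φ k)) s z ≤ ENNReal.ofReal (pC (sliceA E z) + ε)) := by
  have hm := (wt_spec hW).1
  have hgap : Tendsto (fun k => gap W (g k) s) atTop (𝓝 0) := by
    refine ENNReal.tendsto_nhds_zero.2 fun δ hδ => ?_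
    obtain ⟨r, hr, hrδ⟩ := ENNReal.lt_iff_exists_nnreal_btwn.1 hδ
    have hr' : (0 : ℝ) < r := by exact_mod_cast hr
    filter_upwards [h.area (r / 2) (half_pos hr'), (tendsto_value h hW hF ha hb).eventually
      (eventually_gt_nhds (show cubeCandidate V - r / 2 < _ by linarith))] with k hk hv
    refine le_trans ?_ hrδ.le
    set x := (∫ z in Icc (0 : ℝ) 1, F (sliceArea (g k) s z)) +
      ∫ a in sliceArea (g k) s 1..sliceArea (g k) s 0, √(1 - W a ^ 2)
    have hx : 0 ≤ x := add_nonneg (setIntegral_nonneg measurableSet_Icc fun z _ => by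
        rw [hWF _ (sliceArea_mem _ _ _)]
        exact mul_nonneg ((wt_spec hW).2 _).1 (CaseC.pC_nonneg (sliceArea_mem _ _ _).1))
      (intervalIntegral.integral_nonneg (antitoneOn_sliceArea (h.good k) s
        (left_mem_Icc.2 zero_le_one) (right_mem_Icc.2 zero_le_one) zero_le_one)
        fun _ _ => sqrt_nonneg _)
    have h1 := ENNReal.le_sub_of_add_le_left ENNReal.ofReal_ne_top
      ((gap_ineq h hW hF hWF k).trans hk)
    rw [← ENNReal.ofReal_sub _ hx] at h1
    refine h1.trans ?_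
    rw [← ENNReal.ofReal_coe_nnreal]
    exact ENNReal.ofReal_le_ofReal (by linarith)
  obtain ⟨φ, hφ, hφg⟩ := extraction_forall_of_eventually
    (P := fun n k => gap W (g k) s ≤ ENNReal.ofReal ((1 / 2 : ℝ) ^ n))
    fun n => ENNReal.tendsto_nhds_zero.1 hgap _ (ENNReal.ofReal_pos.2 (by positivity))
  refine ⟨φ, hφ, ?_⟩
  have hsum : ∑' n, gap W (g (φ n)) s ≠ ⊤ := by
    refine ne_top_of_le_ne_top (b := ENNReal.ofReal (∑' n : ℕ, (1 / 2 : ℝ) ^ n))
      ENNReal.ofReal_ne_top ?_
    rw [ENNReal.ofReal_tsum_of_nonneg (fun n => by positivity) summable_geometric_two]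
    exact ENNReal.tsum_le_tsum hφg
  have hmt := fun n => (measurable_gap_term hm (h.good (φ n)) s).aemeasurable (μ := μI)
  have hfin : ∀ᵐ z ∂μI, ∑' n, ENNReal.ofReal (W (sliceArea (g (φ n)) s z)) *
      (sliceLen (g (φ n)) s z - ENNReal.ofReal (pC (sliceArea (g (φ n)) s z))) < ⊤ := by
    refine ae_lt_top' (AEMeasurable.tsum hmt) ?_
    rw [lintegral_tsum hmt]
    exact hsum
  filter_upwards [hfin, Agree.slices h.meas h.good h.agree] with z hz hsl
  have hA := hsl.2.1.comp hφ.tendsto_atTop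
  refine ⟨hA, fun hWc hW0 ε hε => ?_⟩
  have hc : 0 < W (sliceA E z) / 2 := half_pos hW0
  filter_upwards [(hWc.tendsto.comp hA).eventually (eventually_gt_nhds (half_lt_self hW0)),
    ((continuous_pC.tendsto _).comp hA).eventually
      (eventually_le_nhds (lt_add_of_pos_right _ (half_pos hε))),
    ENNReal.tendsto_nhds_zero.1 (ENNReal.tendsto_atTop_zero_of_tsum_ne_top hz.ne)
      (ENNReal.ofReal (W (sliceA E z) / 2 * (ε / 2)))
      (ENNReal.ofReal_pos.2 (mul_pos hc (half_pos hε)))] with k hk1 hk2 hk3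
  simp only [Function.comp_apply] at hk1 hk2
  have h1 : sliceLen (g (φ k)) s z - ENNReal.ofReal (pC (sliceArea (g (φ k)) s z))
      ≤ ENNReal.ofReal (ε / 2) := by
    have h2 := (mul_le_mul' (ENNReal.ofReal_le_ofReal hk1.le) le_rfl).trans hk3
    rw [ENNReal.ofReal_mul hc.le] at h2
    exact (ENNReal.mul_le_mul_iff_right (ENNReal.ofReal_pos.2 hc).ne' ENNReal.ofReal_ne_top).1 h2
  refine (tsub_le_iff_right.1 h1).trans ?_
  rw [← ENNReal.ofReal_add (half_pos hε).le (CaseC.pC_nonneg (sliceArea_mem _ _ _).1)]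
  exact ENNReal.ofReal_le_ofReal (by linarith)

/-- The tube: constant slice areas. -/
theorem stmtTubeProfile : StmtTubeProfile := by
  intro V hV E g s h ha hb
  have hV0 := hV.1.le
  have hW : (fun _ : ℝ => (1 : ℝ)) ∈ Wt V := Or.inl ⟨0, by simp⟩
  obtain ⟨c1, c2, c3⟩ := CaseC.cube_candidate_le hV.2
  have hA : ∀ᵐ z ∂μI, sliceA E z = V := (sliceA_between h.toSeq ha hb).mono fun z hz =>
    le_antisymm hz.2 hz.1
  have hint : (∫ z in Icc (0 : ℝ) 1, pC (sliceA E z)) + ∫ a in V..V, √(1 - (1 : ℝ) ^ 2) = pC V := by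
    rw [intervalIntegral.integral_same, add_zero, integral_congr_ae (hA.mono fun z hz => by rw [hz])]
    simp
  have hle := value_le h hW continuous_pC (fun a _ => (one_mul _).symm) ha hb
    (cubeCandidate_nonneg ⟨hV0, by linarith [hV.2]⟩)
  rw [hint] at hle
  have hsq : pC V = √(π * V) := by
    refine min_eq_left (le_of_not_gt fun hlt => ?_)
    have hpC : pC V = min (812 / 1000 + 77 / 100 * V) (1272 / 1000) := min_eq_right hlt.le
    rcases min_choice (812 / 1000 + 77 / 100 * V) (1272 / 1000 : ℝ) with e | e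
    · by_cases hs : V ≤ 396 / 1000
      · linarith [CaseC.sqrt_le_lineC hV0 hs, hlt, e]
      · linarith [hpC, e, hle, c1, not_le.1 hs]
    · linarith [hpC, e, hle, c1]
  rw [hsq] at hle
  have hcand : cubeCandidate V = √(π * V) := le_antisymm c2 hle
  have hpi : π * V ≤ 1 := sqrt_le_one.1 (hcand ▸ c1)
  refine ⟨by rw [← hcand, cubeCandidate]; ring, hpi, ?_⟩
  obtain ⟨φ, hφ, hT⟩ := exists_tight h hW continuous_pC (fun a _ => (one_mul _).symm) ha hb
    (by rw [hint, hsq, hcand])
  refine ⟨φ, hφ, ?_⟩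
  filter_upwards [hT, hA] with z hz hzA
  refine ⟨hzA ▸ hz.1, fun _ ε hε => ?_⟩
  rw [← hsq, ← hzA]
  exact hz.2 continuousAt_const one_pos ε hε

theorem wtOf_mul {G : ℝ → ℝ} {a : ℝ} (h0 : 0 ≤ G a) (h1 : G a ≤ pC a) :
    G a = wtOf G a * pC a := by
  rcases (h0.trans h1).eq_or_lt with e | e
  · rw [← e, mul_zero]
    linarith
  · rw [wtOf, min_eq_right ((div_le_one e).2 h1), max_eq_right (div_nonneg h0 e.le),
      div_mul_cancel₀ _ e.ne']

theorem pC_pos {a : ℝ} (ha : 0 < a) : 0 < pC a := by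
  exact lt_min (sqrt_pos.2 (by positivity)) (lt_min (by positivity) (by norm_num))

theorem continuousAt_wtOf {G : ℝ → ℝ} (hG : Continuous G) {a : ℝ} (ha : 0 < a) :
    ContinuousAt (wtOf G) a :=
  continuousAt_const.max (continuousAt_const.min
    (hG.continuousAt.div continuous_pC.continuousAt (pC_pos ha).ne'))

theorem integral_sqrt_line {a₀ k : ℝ} (ha : 0 < a₀) (hk : 0 ≤ k) (hka : k ≤ a₀) :
    ∫ a in (0 : ℝ)..k, √(1 - a / a₀) = 2 / 3 * a₀ * (1 - (1 - k / a₀) * √(1 - k / a₀)) := by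
  have hc : Continuous fun A : ℝ => -(2 * a₀ / 3) * ((1 - A / a₀) * √(1 - A / a₀)) := by fun_prop
  rw [intervalIntegral.integral_eq_sub_of_hasDerivAt_of_le hk hc.continuousOn]
  · simp
    ring
  · intro x hx
    have hpos : 0 < 1 - x / a₀ := by
      rw [sub_pos, div_lt_one ha]
      linarith [hx.2]
    have h1 : HasDerivAt (fun A : ℝ => 1 - A / a₀) (-(1 / a₀)) x :=
      ((hasDerivAt_id x).div_const a₀).const_sub 1
    refine ((h1.mul (h1.sqrt hpos.ne')).const_mul (-(2 * a₀ / 3))).congr_deriv ?_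
    obtain ⟨r, hr, e⟩ : ∃ r, 0 < r ∧ 1 - x / a₀ = r ^ 2 :=
      ⟨_, sqrt_pos.2 hpos, (sq_sqrt hpos.le).symm⟩
    rw [e, sqrt_sq hr.le]
    field_simp
    ring
  · exact Continuous.intervalIntegrable (by fun_prop) _ _

/-- The elementary comparison excluding large balls, on one interval of radii. -/
theorem large_piece {R lo hi a : ℝ} (hlo : 709 / 1000 ≤ lo) (h1 : lo ≤ R) (h2 : R ≤ hi)
    (hhi : R ≤ 986 / 1000) (ea : a = π * R ^ 2 / 4) {m : ℝ}
    (hm : 0 ≤ m) (hm1 : m ≤ 15707 / 10000 * lo)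
    (hm2 : m ≤ 812 / 1000 + 77 / 100 * (3141592 / 4000000 * lo ^ 2)) (hm3 : m ≤ 1272 / 1000)
    (hF : 0 ≤ 2 * lo / 3 * m + 2 / 3 * (891 / 1000 - (1 / 4) * (3141592 / 4000000 * lo ^ 2) -
      156816 / 1000000 / (3141592 / 4000000 * lo ^ 2)))
    (hcond : (3141593 / 1000000) ^ 2 * hi ^ 3 / 6 < (2 * lo / 3 * m + 2 / 3 * (891 / 1000 -
      (1 / 4) * (3141592 / 4000000 * lo ^ 2) - 156816 / 1000000 / (3141592 / 4000000 * lo ^ 2))) ^ 2 ∨
      1 < 2 * lo / 3 * m + 2 / 3 * (891 / 1000 - (1 / 4) * (3141592 / 4000000 * lo ^ 2) -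
        156816 / 1000000 / (3141592 / 4000000 * lo ^ 2))) :
    min 1 (π * R * √(R / 6)) <
      2 * R / 3 * pC a + 2 / 3 * (891 / 1000 - (1 / 4) * a - 156816 / 1000000 / a) := by
  have hR : 0 ≤ R := by linarith
  have hπ := pi_gt_d6
  have hπ' := pi_lt_d6
  set al := 3141592 / 4000000 * lo ^ 2 with hal
  have hal0 : 0 < al := by positivity
  have hle : al ≤ a := by
    rw [ea, hal]
    nlinarith [pow_le_pow_left₀ (by linarith : 0 ≤ lo) h1 2, sq_nonneg lo, hπ]
  have hup : a ≤ 77 / 100 := by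
    rw [ea]
    nlinarith [pow_le_pow_left₀ hR hhi 2, sq_nonneg R, hπ']
  have hmp : m ≤ pC a := by
    refine le_min (le_trans ?_ (le_sqrt_of_sq_le (x := 15707 / 10000 * lo) ?_))
      (le_min (hm2.trans (by linarith)) hm3)
    · exact hm1
    · rw [ea]
      nlinarith [pow_le_pow_left₀ (by linarith : 0 ≤ lo) h1 2, sq_nonneg lo, hπ,
        mul_le_mul hπ.le hπ.le (by norm_num) pi_pos.le]
  have hphi : 891 / 1000 - (1 / 4) * al - 156816 / 1000000 / al
      ≤ 891 / 1000 - (1 / 4) * a - 156816 / 1000000 / a := by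
    have : 0 ≤ (a - al) * (156816 / 1000000 / (a * al) - 1 / 4) := by
      refine mul_nonneg (by linarith) (sub_nonneg.2 ?_)
      have ha' : 0 < a := hal0.trans_le hle
      rw [le_div_iff₀ (by positivity)]
      nlinarith [mul_le_mul hup (hle.trans hup) hal0.le (by norm_num : (0 : ℝ) ≤ 77 / 100)]
    have e : (a - al) * (156816 / 1000000 / (a * al) - 1 / 4)
        = (891 / 1000 - (1 / 4) * a - 156816 / 1000000 / a)
          - (891 / 1000 - (1 / 4) * al - 156816 / 1000000 / al) := by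
      have : a ≠ 0 := (hal0.trans_le hle).ne'
      field_simp
      ring
    linarith
  have hbig : 2 * lo / 3 * m + 2 / 3 * (891 / 1000 - (1 / 4) * al - 156816 / 1000000 / al)
      ≤ 2 * R / 3 * pC a + 2 / 3 * (891 / 1000 - (1 / 4) * a - 156816 / 1000000 / a) := by
    have := mul_le_mul (show 2 * lo / 3 ≤ 2 * R / 3 by linarith) hmp hm (by linarith)
    linarith
  refine lt_of_lt_of_le ?_ hbig
  rcases hcond with hc | hc
  · refine lt_of_le_of_lt (min_le_right _ _) (lt_of_pow_lt_pow_left₀ 2 hF (lt_of_le_of_lt ?_ hc))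
    rw [mul_pow, sq_sqrt (by positivity)]
    have h3 := mul_le_mul (pow_le_pow_left₀ pi_pos.le hπ'.le 2) (pow_le_pow_left₀ hR h2 3)
      (pow_nonneg hR 3) (by positivity)
    linarith
  · exact lt_of_le_of_lt (min_le_left _ _) hc

/-- The elementary comparison excluding large balls. -/
theorem large_num {R a : ℝ} (h1 : 709 / 1000 ≤ R) (hhi : R ≤ 986 / 1000) (ea : a = π * R ^ 2 / 4) :
    min 1 (π * R * √(R / 6)) <
      2 * R / 3 * pC a + 2 / 3 * (891 / 1000 - (1 / 4) * a - 156816 / 1000000 / a) := by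
  by_cases r1 : R ≤ 723 / 1000
  · exact large_piece (m := 11113 / 10000) (by norm_num) h1 r1 hhi ea (by norm_num) (by norm_num)
      (by norm_num) (by norm_num) (by norm_num) (.inl (by norm_num))
  by_cases r2 : R ≤ 738 / 1000
  · exact large_piece (m := 1128 / 1000) (by norm_num) (not_le.1 r1).le r2 hhi ea (by norm_num)
      (by norm_num) (by norm_num) (by norm_num) (by norm_num) (.inl (by norm_num))
  by_cases r3 : R ≤ 753 / 1000
  · exact large_piece (m := 1141 / 1000) (by norm_num) (not_le.1 r2).le r3 hhi ea (by norm_num)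
      (by norm_num) (by norm_num) (by norm_num) (by norm_num) (.inl (by norm_num))
  by_cases r4 : R ≤ 768 / 1000
  · exact large_piece (m := 11547 / 10000) (by norm_num) (not_le.1 r3).le r4 hhi ea (by norm_num)
      (by norm_num) (by norm_num) (by norm_num) (by norm_num) (.inl (by norm_num))
  by_cases r5 : R ≤ 783 / 1000
  · exact large_piece (m := 11686 / 10000) (by norm_num) (not_le.1 r4).le r5 hhi ea (by norm_num)
      (by norm_num) (by norm_num) (by norm_num) (by norm_num) (.inl (by norm_num))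
  by_cases r6 : R ≤ 797 / 1000
  · exact large_piece (m := 11827 / 10000) (by norm_num) (not_le.1 r5).le r6 hhi ea (by norm_num)
      (by norm_num) (by norm_num) (by norm_num) (by norm_num) (.inl (by norm_num))
  by_cases r7 : R ≤ 810 / 1000
  · exact large_piece (m := 11961 / 10000) (by norm_num) (not_le.1 r6).le r7 hhi ea (by norm_num)
      (by norm_num) (by norm_num) (by norm_num) (by norm_num) (.inl (by norm_num))
  by_cases r8 : R ≤ 822 / 1000
  · exact large_piece (m := 12087 / 10000) (by norm_num) (not_le.1 r7).le r8 hhi ea (by norm_num)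
      (by norm_num) (by norm_num) (by norm_num) (by norm_num) (.inl (by norm_num))
  by_cases r9 : R ≤ 834 / 1000
  · exact large_piece (m := 12206 / 10000) (by norm_num) (not_le.1 r8).le r9 hhi ea (by norm_num)
      (by norm_num) (by norm_num) (by norm_num) (by norm_num) (.inl (by norm_num))
  by_cases r10 : R ≤ 845 / 1000
  · exact large_piece (m := 12326 / 10000) (by norm_num) (not_le.1 r9).le r10 hhi ea (by norm_num)
      (by norm_num) (by norm_num) (by norm_num) (by norm_num) (.inl (by norm_num))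
  exact large_piece (m := 1243 / 1000) (by norm_num) (not_le.1 r10).le hhi hhi ea (by norm_num)
    (by norm_num) (by norm_num) (by norm_num) (by norm_num) (.inr (by norm_num))

theorem ballRad_bounds (hV : V ∈ Ioc (0 : ℝ) (1 / 2)) :
    0 < ballRad V ∧ ballRad V ≤ 986 / 1000 ∧ V = π * ballRad V ^ 3 / 6 := by
  have h0 : 0 < 6 * V / π := div_pos (by linarith [hV.1]) pi_pos
  have h3 : ballRad V ^ 3 = 6 * V / π := by
    rw [ballRad, ← rpow_natCast, ← rpow_mul h0.le]
    norm_num
  refine ⟨rpow_pos_of_pos h0 _, le_of_pow_le_pow_left₀ three_ne_zero (by norm_num) ?_, ?_⟩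
  · rw [h3, div_le_iff₀ pi_pos]
    nlinarith [pi_gt_d6, hV.2]
  · rw [h3]
    field_simp

theorem pC_concave {a a₀ : ℝ} (ha : 0 ≤ a) (h : a ≤ a₀) (h0 : 0 < a₀) :
    a / a₀ * pC a₀ ≤ pC a := by
  set t := a / a₀ with ht
  have ht0 : 0 ≤ t := div_nonneg ha h0.le
  have ht1 : t ≤ 1 := (div_le_one h0).2 h
  have ea : a = t * a₀ := by rw [ht]; field_simp
  refine le_min ?_ (le_min ?_ ?_)
  · refine (mul_le_mul_of_nonneg_left (min_le_left _ _) ht0).trans (le_sqrt_of_sq_le ?_)
    rw [mul_pow, sq_sqrt (by positivity), ea]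
    nlinarith [mul_nonneg (mul_nonneg ht0 (sub_nonneg.2 ht1)) (mul_nonneg pi_pos.le h0.le)]
  · refine (mul_le_mul_of_nonneg_left ((min_le_right _ _).trans (min_le_left _ _)) ht0).trans ?_
    rw [ea]
    nlinarith
  · refine (mul_le_mul_of_nonneg_left ((min_le_right _ _).trans (min_le_right _ _)) ht0).trans ?_
    nlinarith

/-- The ball calibration with weight is admissible. -/
theorem gBall_mul {r ε a : ℝ} (hr : r ∈ Icc (0 : ℝ) 1) (hε : |ε| ≤ 1 / 16) (hV : 0 ≤ ballTop V)
    (ha : a ∈ Icc (0 : ℝ) 1) : gBall V r ε a = wtOf (gBall V r ε) a * pC a :=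
  wtOf_mul (le_min (mul_nonneg (sqrt_nonneg _) (fld_nonneg hr hε (div_nonneg ha.1 hV)))
    (CaseC.pC_nonneg ha.1)) (min_le_right _ _)

/-- The radius is at most `2/3`, and the unperturbed calibration has the value of the ball. -/
theorem ballRad_le (hV : V ∈ Ioc (0 : ℝ) (1 / 2)) (h : SeqC V E g s)
    (ha : Tendsto (fun k => sliceArea (g k) s 0) atTop (𝓝 (ballTop V)))
    (hb : Tendsto (fun k => sliceArea (g k) s 1) atTop (𝓝 0)) :
    ballTop V ≤ 396 / 1000 := by
  obtain ⟨hR, hR1, hVR⟩ := ballRad_bounds hV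
  obtain ⟨c1, c2, c3⟩ := CaseC.cube_candidate_le hV.2
  set R := ballRad V
  set a₀ := ballTop V with ea
  have ea' : a₀ = π * R ^ 2 / 4 := rfl
  have ha0 : 0 < a₀ := by rw [ea']; positivity
  by_contra hlarge
  rw [not_le] at hlarge
  have hr : (0 : ℝ) ∈ testR := ⟨⟨0, by simp⟩, left_mem_Icc.2 zero_le_one⟩
  have hW : wtOf (gBall V 0 0) ∈ Wt V := Or.inr ⟨(0, 0), ⟨hr, mem_insert 0 _⟩, rfl⟩
  have hval := value_le h hW (continuous_gBall V 0 0)
    (fun a ha => gBall_mul hr.2 (by norm_num) ha0.le ha) ha hb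
    (cubeCandidate_nonneg ⟨hV.1.le, by linarith [hV.2]⟩)
  have hGi : ∀ F : ℝ → ℝ, Continuous F → Integrable (fun z => F (sliceA E z)) μI := fun F hF => by
    obtain ⟨C, hC⟩ := (isCompact_Icc (a := (0 : ℝ)) (b := 1)).exists_bound_of_continuousOn
      hF.continuousOn
    exact (integrable_const C).mono' (hF.measurable.comp (measurable_sliceA h.meas)).aestronglyMeasurable
      (Eventually.of_forall fun z => hC _ (sliceA_mem E z))
  have h1 : pC a₀ / a₀ * V ≤ ∫ z in Icc (0 : ℝ) 1, gBall V 0 0 (sliceA E z) := by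
    refine le_trans (le_of_eq (congrArg (pC a₀ / a₀ * ·) (Agree.sliceA_spec h.meas h.good h.agree h.vol).2.symm)) ?_
    rw [← integral_const_mul]
    refine integral_mono_ae ((hGi id continuous_id).const_mul _) (hGi _ (continuous_gBall V 0 0)) ?_
    filter_upwards [sliceA_between h.toSeq ha hb] with z hz
    simp only [gBall, fld_zero]
    rw [← ea]
    have hcc := pC_concave hz.1 hz.2 ha0
    refine le_min ?_ (le_trans (le_of_eq (by ring)) hcc)
    rw [show pC a₀ / a₀ * sliceA E z = sliceA E z / a₀ * pC a₀ by ring,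
      mul_comm (√(π * a₀))]
    exact mul_le_mul_of_nonneg_left (min_le_left _ _) (div_nonneg hz.1 ha0.le)
  have h2 : 2 / 3 * a₀ * (1 - (1 - 396 / 1000 / a₀) * √(1 - 396 / 1000 / a₀))
      ≤ ∫ a in (0 : ℝ)..a₀, √(1 - wtOf (gBall V 0 0) a ^ 2) := by
    rw [← integral_sqrt_line ha0 (by norm_num) hlarge.le]
    refine le_trans (intervalIntegral.integral_mono_on (by norm_num)
      (Continuous.intervalIntegrable (by fun_prop) _ _)
      (intervalIntegrable_weight (wt_spec hW).1 _ _) fun a hai => ?_)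
      (intervalIntegral.integral_mono_interval le_rfl (by norm_num) hlarge.le
        (Eventually.of_forall fun _ => sqrt_nonneg _) (intervalIntegrable_weight (wt_spec hW).1 _ _))
    refine sqrt_le_sqrt (sub_le_sub_left ?_ _)
    rcases hai.1.eq_or_lt with e | e
    · simp [← e, wtOf, gBall, fld_zero, CaseC.pC_small (le_refl (0 : ℝ)) (by norm_num)]
    · have hp : pC a = √(π * a) := CaseC.pC_small hai.1 hai.2
      have hq : 0 < √(π * a) := sqrt_pos.2 (by positivity)
      have hG : gBall V 0 0 a ≤ √(π * a₀) * (a / a₀) := by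
        simp only [gBall, fld_zero]
        exact min_le_left _ _
      have hle : wtOf (gBall V 0 0) a ≤ √(π * a₀) * (a / a₀) / √(π * a) := by
        refine max_le (by positivity) ((min_le_right _ _).trans ?_)
        rw [hp]
        exact div_le_div_of_nonneg_right hG hq.le
      refine (pow_le_pow_left₀ ((wt_spec hW).2 a).1 hle 2).trans (le_of_eq ?_)
      rw [div_pow, mul_pow, sq_sqrt (by positivity), sq_sqrt (by positivity)]
      field_simp
  have hu : 0 ≤ 1 - 396 / 1000 / a₀ := by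
    rw [sub_nonneg, div_le_one ha0]
    exact hlarge.le
  have h3 : 2 / 3 * (891 / 1000 - (1 / 4) * a₀ - 156816 / 1000000 / a₀)
      ≤ 2 / 3 * a₀ * (1 - (1 - 396 / 1000 / a₀) * √(1 - 396 / 1000 / a₀)) := by
    have hsq : √(1 - 396 / 1000 / a₀) ≤ (1 - 396 / 1000 / a₀) + 1 / 4 := by
      rw [Real.sqrt_le_left (by linarith)]
      nlinarith [sq_nonneg (1 - 396 / 1000 / a₀ - 1 / 4)]
    have := mul_le_mul_of_nonneg_left (mul_le_mul_of_nonneg_left hsq hu)
      (by positivity : (0 : ℝ) ≤ 2 / 3 * a₀)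
    have e : 2 / 3 * a₀ * (1 - (1 - 396 / 1000 / a₀) * (1 - 396 / 1000 / a₀ + 1 / 4))
        = 2 / 3 * (891 / 1000 - (1 / 4) * a₀ - 156816 / 1000000 / a₀) := by
      field_simp
      ring
    linarith
  have h709 : 709 / 1000 ≤ R := by
    by_contra hc
    have := pow_le_pow_left₀ hR.le (not_le.1 hc).le 2
    nlinarith [pi_lt_d6, sq_nonneg R, hlarge, ea']
  have hkey := large_num h709 hR1 ea'
  have e1 : pC a₀ / a₀ * V = 2 * R / 3 * pC a₀ := by
    rw [ea', hVR]
    field_simp
    ring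
  have e2 : √(π * V) = π * R * √(R / 6) := by
    rw [show π * V = (π * R) ^ 2 * (R / 6) by rw [hVR]; ring, sqrt_mul (sq_nonneg _),
      sqrt_sq (by positivity)]
  rw [← e2] at hkey
  linarith [le_min c1 c2]

/-- The ball: the profile of its slices. -/
theorem stmtBallProfile : StmtBallProfile := by
  intro V hV E g s h ha hb
  have hsmall := ballRad_le hV h ha hb
  obtain ⟨hR, hR1, hVR⟩ := ballRad_bounds hV
  obtain ⟨c1, c2, c3⟩ := CaseC.cube_candidate_le hV.2
  set R := ballRad V with eR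
  set a₀ := ballTop V with ea
  have ea' : a₀ = π * R ^ 2 / 4 := rfl
  have ha0 : 0 < a₀ := by rw [ea']; positivity
  set T : ℝ → ℝ := fun z => clamp (sliceA E z / a₀) with hT
  have hTm : Measurable T := by
    have := measurable_sliceA h.meas
    simp only [hT, clamp]
    fun_prop
  have hbet := sliceA_between h.toSeq ha hb
  have hTA : ∀ᵐ z ∂μI, T z = sliceA E z / a₀ := hbet.mono fun z hz =>
    clamp_of_mem ⟨div_nonneg hz.1 ha0.le, (div_le_one ha0).2 hz.2⟩
  have hTint : ∀ F : ℝ → ℝ, Continuous F → Integrable (fun z => F (T z)) μI := fun F hF => by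
    obtain ⟨C, hC⟩ := (isCompact_Icc (a := (0 : ℝ)) (b := 1)).exists_bound_of_continuousOn
      hF.continuousOn
    exact (integrable_const C).mono' (hF.measurable.comp hTm).aestronglyMeasurable
      (Eventually.of_forall fun z => hC _ (clamp_mem _))
  have hsum : ∫ z in Icc (0 : ℝ) 1, T z = 2 * R / 3 := by
    rw [integral_congr_ae hTA, integral_div, (Agree.sliceA_spec h.meas h.good h.agree h.vol).2,
      ea', hVR]
    field_simp
    ring
  have hsqa : √(π * a₀) = π * R / 2 := by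
    rw [ea', show π * (π * R ^ 2 / 4) = (π * R / 2) ^ 2 by ring, sqrt_sq (by positivity)]
  have hG : ∀ r ∈ Icc (0 : ℝ) 1, ∀ ε : ℝ, |ε| ≤ 1 / 16 → ∀ a ∈ Icc 0 a₀,
      gBall V r ε a = √(π * a₀) * fld r ε (a / a₀) ∧
        √(1 - wtOf (gBall V r ε) a ^ 2) = ballWt r ε (a / a₀) := by
    intro r hr ε hε a hai
    have ht : a / a₀ ∈ Icc (0 : ℝ) 1 := ⟨div_nonneg hai.1 ha0.le, (div_le_one ha0).2 hai.2⟩
    have hp : pC a = √(π * a) := CaseC.pC_small hai.1 (hai.2.trans hsmall)
    have hf := fld_nonneg hr hε ht.1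
    have hle : √(π * a₀) * fld r ε (a / a₀) ≤ √(π * a) := by
      refine le_sqrt_of_sq_le ?_
      rw [mul_pow, sq_sqrt (by positivity)]
      refine (mul_le_mul_of_nonneg_left (ball_perturb hr hε ht).1 (by positivity)).trans (le_of_eq ?_)
      field_simp
    have hg : gBall V r ε a = √(π * a₀) * fld r ε (a / a₀) := by
      rw [gBall, ← ea, hp]
      exact min_eq_left hle
    refine ⟨hg, ?_⟩
    have hq := sqrt_nonneg (π * a)
    rw [wtOf, hg, hp, min_eq_right (div_le_one_of_le₀ hle hq),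
      max_eq_right (div_nonneg (mul_nonneg (sqrt_nonneg _) hf) hq), ballWt, div_pow, mul_pow,
      sq_sqrt (mul_nonneg pi_pos.le ha0.le), sq_sqrt (mul_nonneg pi_pos.le hai.1)]
    congr 2
    rcases hai.1.eq_or_lt with e | e
    · simp [← e]
    · field_simp
  have hvalue : ∀ r ∈ Icc (0 : ℝ) 1, ∀ ε : ℝ, |ε| ≤ 1 / 16 →
      (∫ z in Icc (0 : ℝ) 1, gBall V r ε (sliceA E z)) +
          (∫ a in (0 : ℝ)..a₀, √(1 - wtOf (gBall V r ε) a ^ 2)) =
        π * R / 2 * (2 * R / 3 - ε * ∫ z in Icc (0 : ℝ) 1, hat r (T z)) +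
          a₀ * ∫ t in (0 : ℝ)..1, ballWt r ε t := by
    intro r hr ε hε
    congr 1
    · rw [← hsum, ← integral_const_mul, ← integral_sub (f := fun z => T z)
        (hTint id continuous_id) ((hTint _ (continuous_hat r)).const_mul ε), ← integral_const_mul]
      refine integral_congr_ae ?_
      filter_upwards [hbet, hTA] with z hz hzT
      rw [(hG r hr ε hε _ hz).1, hsqa, hzT]
      rfl
    · rw [intervalIntegral.integral_congr (g := fun a => ballWt r ε (a / a₀)) fun a hai => by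
        rw [uIcc_of_le ha0.le] at hai; exact (hG r hr ε hε a hai).2,
        intervalIntegral.integral_comp_div _ ha0.ne', zero_div, div_self ha0.ne', smul_eq_mul]
  have hroot : ∫ t in (0 : ℝ)..1, √(1 - t) = 2 / 3 := by
    have := integral_sqrt_line (a₀ := 1) (k := 1) one_pos zero_le_one le_rfl
    simpa using this
  have hcand : cubeCandidate V ≤ π * R ^ 2 / 2 := by
    refine c3.trans (le_of_pow_le_pow_left₀ three_ne_zero (by positivity) (le_of_eq ?_))
    rw [mul_pow, ← rpow_natCast ((9 * π / 2) ^ ((1 : ℝ) / 3)) 3, ← rpow_mul (by positivity),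
      ← rpow_natCast (V ^ ((2 : ℝ) / 3)) 3, ← rpow_mul hV.1.le]
    norm_num
    rw [hVR]
    ring
  have hmem : ∀ r ∈ testR, ∀ ε ∈ testEps, wtOf (gBall V r ε) ∈ Wt V := fun r hr ε hε =>
    Or.inr ⟨(r, ε), ⟨hr, hε⟩, rfl⟩
  have hr0 : (0 : ℝ) ∈ testR := ⟨⟨0, by simp⟩, left_mem_Icc.2 zero_le_one⟩
  have hε0 : (0 : ℝ) ∈ testEps := mem_insert 0 _
  have hnn := cubeCandidate_nonneg ⟨hV.1.le, (by linarith [hV.2] : V ≤ 1)⟩
  have hj : cubeCandidate V = π * R ^ 2 / 2 := by
    refine le_antisymm hcand ?_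
    have hval := value_le h (hmem 0 hr0 0 hε0) (continuous_gBall V 0 0)
      (fun a ha => gBall_mul hr0.2 (by norm_num) ha0.le ha) ha hb hnn
    rw [hvalue 0 hr0.2 0 (by norm_num)] at hval
    have e : ∫ t in (0 : ℝ)..1, ballWt 0 0 t = 2 / 3 := by
      rw [← hroot]
      refine intervalIntegral.integral_congr fun t _ => ?_
      simp only [ballWt, fld_zero]
      rcases eq_or_ne t 0 with rfl | ht
      · simp
      · congr 2; field_simp
    rw [e, ea'] at hval
    linarith
  have hR23 : R ≤ 2 / 3 := by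
    by_contra hc
    rw [hj] at c2
    have h4 := pow_le_pow_left₀ (by positivity) c2 2
    rw [sq_sqrt (mul_nonneg pi_pos.le hV.1.le), hVR] at h4
    have : 0 < π ^ 2 * R ^ 3 * (R / 4 - 1 / 6) := by
      have : 0 < R / 4 - 1 / 6 := by linarith [not_le.1 hc]
      positivity
    nlinarith
  have hhat : ∀ r : ℚ, 0 ≤ r → r ≤ 1 → ∫ z in Icc (0 : ℝ) 1, hat r (T z) =
      (∫ t in (0 : ℝ)..(r : ℝ), R * √(1 - t)) - r * ∫ t in (0 : ℝ)..1, R * √(1 - t) := by
    intro q hq0 hq1
    have hr : (q : ℝ) ∈ Icc (0 : ℝ) 1 := ⟨by exact_mod_cast hq0, by exact_mod_cast hq1⟩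
    have hrt : (q : ℝ) ∈ testR := ⟨⟨q, rfl⟩, hr⟩
    set r : ℝ := (q : ℝ)
    obtain ⟨hdi, hde⟩ := integral_ball_density hr
    rw [intervalIntegral.integral_const_mul, intervalIntegral.integral_const_mul,
      show R * (∫ t in (0 : ℝ)..r, √(1 - t)) - r * (R * ∫ t in (0 : ℝ)..1, √(1 - t)) =
        R * ((∫ t in (0 : ℝ)..r, √(1 - t)) - r * ∫ t in (0 : ℝ)..1, √(1 - t)) by ring, ← hde]
    set H := ∫ z in Icc (0 : ℝ) 1, hat r (T z)
    set I := ∫ t in (0 : ℝ)..1, hat r t * (1 / (2 * √(1 - t)))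
    refine (sub_eq_zero.1 (eq_zero_of_quadratic (K := 16 / 3 * a₀ / (π * R / 2)) fun m hm σ => ?_)).symm
    set ε : ℝ := (if σ then 1 else -1) / (m : ℝ) with hεd
    have hεm : ε ∈ testEps := Or.inr ⟨(m - 16, σ), by simp [hεd, Nat.cast_sub hm]⟩
    have hεa := abs_le_of_mem_testEps hεm
    have hval := value_le h (hmem r hrt ε hεm) (continuous_gBall V r ε)
      (fun a ha => gBall_mul hr hεa ha0.le ha) ha hb hnn
    rw [hvalue r hr ε hεa, hj] at hval
    have i1 : IntervalIntegrable (fun t => √(1 - t)) volume 0 1 :=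
      Continuous.intervalIntegrable (by fun_prop) _ _
    have i2 := (hdi.continuousOn_mul (g := hat r) (continuous_hat r).continuousOn).const_mul (2 * ε)
    have hlow : 2 / 3 + 2 * ε * I - 8 * ε ^ 2 * (2 / 3) ≤ ∫ t in (0 : ℝ)..1, ballWt r ε t := by
      rw [← hroot, ← intervalIntegral.integral_const_mul, ← intervalIntegral.integral_const_mul,
        ← intervalIntegral.integral_add i1 i2,
        ← intervalIntegral.integral_sub (i1.add i2) (i1.const_mul _)]
      refine intervalIntegral.integral_mono_on zero_le_one ((i1.add i2).sub (i1.const_mul _))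
        ((intervalIntegrable_const (c := (1 : ℝ))).mono_fun ?_ ?_) fun t ht => ?_
      · have := (continuous_fld r ε).measurable
        exact (by unfold ballWt; fun_prop : Measurable (ballWt r ε)).aestronglyMeasurable
      · refine (ae_restrict_mem measurableSet_uIoc).mono fun t ht => ?_
        rw [uIoc_of_le zero_le_one] at ht
        simp only [ballWt, norm_one, Real.norm_of_nonneg (sqrt_nonneg _)]
        exact sqrt_le_one.2 (sub_le_self _ (div_nonneg (sq_nonneg _) ht.1.le))
      · refine le_trans (le_of_eq ?_) (ball_perturb hr hεa ht).2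
        ring
    have hm' := mul_le_mul_of_nonneg_left hlow ha0.le
    have hp : 0 < π * R / 2 := by positivity
    have key : ε * (R * I - H) * (π * R / 2) ≤ 16 / 3 * a₀ * ε ^ 2 := by
      rw [ea'] at hm' hval ⊢
      linarith
    show ε * (R * I - H) ≤ _
    rw [show 16 / 3 * a₀ / (π * R / 2) * ε ^ 2 = 16 / 3 * a₀ * ε ^ 2 / (π * R / 2) by ring,
      le_div_iff₀ hp]
    exact key
  have hZc : ContinuousOn (fun t => R * √(1 - t)) (Icc 0 1) := by fun_prop
  have hZa : AntitoneOn (fun t => R * √(1 - t)) (Icc 0 1) := fun x _ y _ hxy =>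
    mul_le_mul_of_nonneg_left (sqrt_le_sqrt (by linarith)) hR.le
  obtain ⟨⟨G, hG1, hG2⟩, -⟩ := Agree.sliceA_spec h.meas h.good h.agree h.vol
  have hprof := profile_of_hat hTm (fun _ => clamp_mem _) hG1
    (fun y hy y' hy' hyy => max_le_max le_rfl (min_le_min
      (div_le_div_of_nonneg_right (hG2 hy hy' hyy) ha0.le) le_rfl))
    hZc hZa (by rw [hsum, intervalIntegral.integral_const_mul, hroot]; ring) hhat
  have hW0 := hmem 0 hr0 0 hε0
  have hWF := fun a (ha : a ∈ Icc (0 : ℝ) 1) =>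
    gBall_mul (V := V) (r := 0) (ε := 0) hr0.2 (by norm_num) ha0.le ha
  obtain ⟨φ, hφ, hT'⟩ := exists_tight h hW0 (continuous_gBall V 0 0) hWF ha hb (by
    rw [hvalue 0 hr0.2 0 (by norm_num), hj,
      show ∫ t in (0 : ℝ)..1, ballWt 0 0 t = 2 / 3 by
        rw [← hroot]
        refine intervalIntegral.integral_congr fun t _ => ?_
        simp only [ballWt, fld_zero]
        rcases eq_or_ne t 0 with rfl | ht
        · simp
        · congr 2; field_simp, ea']
    linarith)
  refine ⟨by rw [cubeCandidate] at hj; linarith, hR23, φ, hφ, ?_⟩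
  filter_upwards [hT', hprof, hTA, hbet, ae_restrict_mem measurableSet_Icc,
    ae_restrict_of_ae (compl_mem_ae_iff.2 (measure_singleton (μ := volume) (0 : ℝ)))]
    with z hz hp hzT hzb hzI hz0
  have hzpos : 0 < z := lt_of_le_of_ne hzI.1 (Ne.symm hz0)
  have hA : sliceA E z = π / 4 * max (R ^ 2 - z ^ 2) 0 := by
    have e : sliceA E z = a₀ * T z := by rw [hzT]; field_simp
    have hval : T z = max (1 - z ^ 2 / R ^ 2) 0 := by
      have hT0 : 0 ≤ T z := (clamp_mem _).1
      have hlt : ∀ t : ℝ, t < 1 - z ^ 2 / R ^ 2 → z < R * √(1 - t) := fun t ht => by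
        have h1 : 0 ≤ 1 - t := by linarith [div_nonneg (sq_nonneg z) (sq_nonneg R)]
        refine lt_of_pow_lt_pow_left₀ 2 (by positivity) ?_
        rw [mul_pow, sq_sqrt h1]
        have := mul_lt_mul_of_pos_left ht (pow_pos hR 2)
        rw [mul_sub, mul_div_cancel₀ _ (by positivity)] at this
        linarith
      have hgt : ∀ t : ℝ, t ≤ 1 → 1 - z ^ 2 / R ^ 2 < t → R * √(1 - t) < z := fun t h1 ht => by
        refine lt_of_pow_lt_pow_left₀ 2 hzpos.le ?_
        rw [mul_pow, sq_sqrt (by linarith)]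
        have := mul_lt_mul_of_pos_left ht (pow_pos hR 2)
        rw [mul_sub, mul_div_cancel₀ _ (by positivity)] at this
        linarith
      have htop : 1 - z ^ 2 / R ^ 2 < 1 := by linarith [div_pos (pow_pos hzpos 2) (pow_pos hR 2)]
      refine le_antisymm ?_ (max_le (le_of_forall_lt_imp_le_of_dense fun t ht => ?_) hT0)
      · refine le_of_forall_gt_imp_ge_of_dense fun t ht => ?_
        obtain ⟨h1, h2⟩ := max_lt_iff.1 ht
        rcases lt_or_ge t 1 with h3 | h3
        · exact (hp t ⟨h2, h3⟩).2 (hgt t h3.le h1)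
        · exact (clamp_mem _).2.trans h3
      · rcases le_or_gt t 0 with h3 | h3
        · exact h3.trans hT0
        · exact ((hp t ⟨h3, ht.trans htop⟩).1 (hlt t ht)).le
    rw [e, hval, ea', mul_max_of_nonneg _ _ (by positivity), mul_max_of_nonneg _ _ (by positivity),
      mul_zero, mul_zero]
    congr 1
    field_simp
  refine ⟨hA ▸ hz.1, fun hpos ε hε => ?_⟩
  rw [← hA] at hpos ⊢
  have hp : pC (sliceA E z) = √(π * sliceA E z) := CaseC.pC_small hzb.1 (hzb.2.trans hsmall)
  rw [← hp]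
  refine hz.2 (continuousAt_wtOf (continuous_gBall V 0 0) hpos) ?_ ε hε
  refine lt_max_of_lt_right (lt_min one_pos (div_pos (lt_min ?_ (pC_pos hpos)) (pC_pos hpos)))
  rw [fld_zero]
  positivity

end Vale.Agent.P232.Rigid.Core
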