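import Vale.Agent.P232.OneDim.CaseB.Strict
import Vale.Agent.P232.OneDim.CaseCStrict
import Vale.Agent.P232.Rigid.Core.Assemble
import Vale.Agent.P232.Rigid.Core.CaseB
import Vale.Agent.P232.Rigid.Core.Planar
import Vale.Agent.P232.Rigid.Core.Profile

/-!
# P232 rigidity core: sorted relative minimisers are slabs, tubes or balls
-/

namespace Vale.Agent.P232.Rigid.Core

/-- Sorted relative minimisers of volume at most one half are slabs, tubes or balls. -/
theorem stmtSorted : StmtSorted :=
  stmtSorted_of_parts CaseB.caseB_strict stmtStrictC stmtSlabCore stmtBallProfile stmtTubeProfile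
    stmtDiscSlices

end Vale.Agent.P232.Rigid.Core
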